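import Mathlib

namespace Vale.Agent.P368

open Matrix
open scoped Matrix.Norms.L2Operator

set_option linter.unusedSectionVars false

variable {ι : Type} [Fintype ι] [DecidableEq ι]

abbrev Mt (ι : Type) : Type := Matrix (ι → Bool) (ι → Bool) ℂ

noncomputable def tens (u : ι → Matrix Bool Bool ℂ) : Mt ι :=
  Matrix.of fun y z => ∏ q, u q (y q) (z q)

lemma tens_apply (u : ι → Matrix Bool Bool ℂ) (y z) : tens u y z = ∏ q, u q (y q) (z q) := rfl

lemma tens_mul (u v : ι → Matrix Bool Bool ℂ) :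
    tens u * tens v = tens fun q => u q * v q := by
  ext y z
  simp only [mul_apply, tens_apply]
  rw [Finset.prod_univ_sum]
  simp only [Fintype.piFinset_univ, Finset.prod_mul_distrib]

lemma tens_one : tens (fun _ : ι => (1 : Matrix Bool Bool ℂ)) = 1 := by
  ext y z
  simp only [tens_apply, one_apply]
  by_cases h : y = z
  · subst h; simp
  · rw [if_neg h]
    obtain ⟨q, hq⟩ := Function.ne_iff.mp h
    exact Finset.prod_eq_zero (Finset.mem_univ q) (if_neg hq)

lemma tens_ct (u : ι → Matrix Bool Bool ℂ) : (tens u)ᴴ = tens fun q => (u q)ᴴ := by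
  ext y z
  simp [tens_apply, conjTranspose_apply]

def IsU (u : ι → Matrix Bool Bool ℂ) : Prop := ∀ q, u q * (u q)ᴴ = 1 ∧ (u q)ᴴ * u q = 1

lemma IsU.mul {u v : ι → Matrix Bool Bool ℂ} (hu : IsU u) (hv : IsU v) :
    IsU fun q => u q * v q := by
  intro q
  constructor
  · rw [conjTranspose_mul, mul_assoc, ← mul_assoc (v q), (hv q).1, one_mul, (hu q).1]
  · rw [conjTranspose_mul, mul_assoc, ← mul_assoc (u q)ᴴ, (hu q).2, one_mul, (hv q).2]

lemma IsU.ct {u : ι → Matrix Bool Bool ℂ} (hu : IsU u) : IsU fun q => (u q)ᴴ := by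
  intro q
  simp [(hu q).1, (hu q).2]

lemma IsU.one : IsU fun _ : ι => (1 : Matrix Bool Bool ℂ) := by
  intro q; simp

def IsUn (C : Mt ι) : Prop := C * Cᴴ = 1 ∧ Cᴴ * C = 1

lemma IsUn.mul {C D : Mt ι} (hC : IsUn C) (hD : IsUn D) : IsUn (C * D) := by
  constructor
  · rw [conjTranspose_mul, mul_assoc, ← mul_assoc D, hD.1, one_mul, hC.1]
  · rw [conjTranspose_mul, mul_assoc, ← mul_assoc Cᴴ, hC.2, one_mul, hD.2]

lemma IsUn.ct {C : Mt ι} (hC : IsUn C) : IsUn Cᴴ := by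
  constructor <;> simp [hC.1, hC.2]

lemma IsU.isUn {u : ι → Matrix Bool Bool ℂ} (hu : IsU u) : IsUn (tens u) := by
  constructor
  · rw [tens_ct, tens_mul]; simp only [(hu _).1]; exact tens_one
  · rw [tens_ct, tens_mul]; simp only [(hu _).2]; exact tens_one

noncomputable def dg (f : (ι → Bool) → ℝ) : Mt ι := diagonal fun y => (f y : ℂ)

lemma dg_mul (f g : (ι → Bool) → ℝ) : dg f * dg g = dg fun y => f y * g y := by
  simp [dg, diagonal_mul_diagonal]

lemma dg_add (f g : (ι → Bool) → ℝ) : dg (fun y => f y + g y) = dg f + dg g := by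
  simp [dg, diagonal_add]

lemma dg_sub (f g : (ι → Bool) → ℝ) : dg (fun y => f y - g y) = dg f - dg g := by
  simp [dg, diagonal_sub]

lemma dg_smul (c : ℝ) (f : (ι → Bool) → ℝ) : dg (fun y => c * f y) = (c : ℂ) • dg f := by
  ext y z
  simp only [dg, diagonal_apply, Matrix.smul_apply]
  split_ifs <;> simp

lemma dg_sum {κ : Type*} (s : Finset κ) (f : κ → (ι → Bool) → ℝ) :
    dg (fun y => ∑ k ∈ s, f k y) = ∑ k ∈ s, dg (f k) := by
  classical
  induction s using Finset.induction_on with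
  | empty => simp [dg]
  | insert a s ha ih => simp only [Finset.sum_insert ha]; rw [dg_add, ih]

lemma dg_ct (f : (ι → Bool) → ℝ) : (dg f)ᴴ = dg f := by
  simp [dg, diagonal_conjTranspose, Pi.star_def]

lemma dg_one : dg (fun _ : ι → Bool => (1 : ℝ)) = 1 := by
  simp [dg]

lemma dg_congr {f g : (ι → Bool) → ℝ} (h : ∀ y, f y = g y) : dg f = dg g := by
  congr 1; exact funext h

lemma norm_dg_le {f : (ι → Bool) → ℝ} {b : ℝ} (hb : 0 ≤ b) (h : ∀ y, |f y| ≤ b) :
    ‖dg f‖ ≤ b := by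
  rw [dg, l2_opNorm_diagonal, pi_norm_le_iff_of_nonneg hb]
  intro y
  simpa using h y

lemma IsUn.norm_le {C : Mt ι} (hC : IsUn C) : ‖C‖ ≤ 1 := by
  have h := l2_opNorm_conjTranspose_mul_self C
  rw [hC.2] at h
  have h1 : ‖(1 : Mt ι)‖ ≤ 1 := by
    rw [← dg_one]; exact norm_dg_le zero_le_one (by simp)
  nlinarith [norm_nonneg C]

lemma nmul_le {A B : Mt ι} {a b : ℝ} (ha : ‖A‖ ≤ a) (hb : ‖B‖ ≤ b) : ‖A * B‖ ≤ a * b :=
  (norm_mul_le A B).trans (mul_le_mul ha hb (norm_nonneg _) ((norm_nonneg _).trans ha))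

lemma nmul_left {A B : Mt ι} {b : ℝ} (ha : ‖A‖ ≤ 1) (hb : ‖B‖ ≤ b) : ‖A * B‖ ≤ b := by
  simpa using nmul_le ha hb

lemma nmul_right {A B : Mt ι} {a : ℝ} (ha : ‖A‖ ≤ a) (hb : ‖B‖ ≤ 1) : ‖A * B‖ ≤ a := by
  simpa using nmul_le ha hb

lemma entry_le (A : Mt ι) (y z : ι → Bool) : ‖A y z‖ ≤ ‖A‖ := by
  have h := l2_opNorm_mulVec A (EuclideanSpace.single z (1 : ℂ))
  have h2 : ‖(A *ᵥ (EuclideanSpace.single z (1 : ℂ) : EuclideanSpace ℂ (ι → Bool))) y‖ ≤
      ‖(EuclideanSpace.equiv (ι → Bool) ℂ).symm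
        (A *ᵥ (EuclideanSpace.single z (1 : ℂ) : EuclideanSpace ℂ (ι → Bool)))‖ :=
    PiLp.norm_apply_le ((EuclideanSpace.equiv (ι → Bool) ℂ).symm
        (A *ᵥ (EuclideanSpace.single z (1 : ℂ) : EuclideanSpace ℂ (ι → Bool)))) y
  have h3 : (A *ᵥ (EuclideanSpace.single z (1 : ℂ) : EuclideanSpace ℂ (ι → Bool))) y = A y z := by
    simp
  rw [h3] at h2
  simpa using h2.trans h

def cnt (S : Finset ι) (y : ι → Bool) : ℕ := (S.filter fun q => y q = false).card

noncomputable def Gt (S : Finset ι) (W : ℕ) : Mt ι := dg fun y => if W < cnt S y then 1 else 0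

noncomputable def Le (S : Finset ι) (t : ℕ) : Mt ι := dg fun y => if cnt S y ≤ t then 1 else 0

lemma norm_Gt (S : Finset ι) (W : ℕ) : ‖Gt S W‖ ≤ 1 :=
  norm_dg_le zero_le_one fun y => by split_ifs <;> simp

lemma norm_Le (S : Finset ι) (W : ℕ) : ‖Le S W‖ ≤ 1 :=
  norm_dg_le zero_le_one fun y => by split_ifs <;> simp

lemma Gt_add_Le (S : Finset ι) (W : ℕ) : Gt S W + Le S W = 1 := by
  rw [Gt, Le, ← dg_add, ← dg_one]
  refine dg_congr fun y => ?_
  by_cases h : W < cnt S y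
  · simp [h, not_le.mpr h]
  · simp [h, not_lt.mp h]

lemma Gt_mono (S : Finset ι) {W W' : ℕ} (h : W' ≤ W) : Gt S W = Gt S W * Gt S W' := by
  rw [Gt, Gt, dg_mul]
  refine dg_congr fun y => ?_
  by_cases h1 : W < cnt S y
  · simp [h1, lt_of_le_of_lt h h1]
  · simp [h1]

lemma norm_Gt_mono (S : Finset ι) {W W' : ℕ} (h : W' ≤ W) {A B : Mt ι} {e : ℝ}
    (hA : ‖Gt S W' * A * B‖ ≤ e) : ‖Gt S W * A * B‖ ≤ e := by
  rw [Gt_mono S h, mul_assoc, mul_assoc, ← mul_assoc (Gt S W')]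
  exact nmul_left (norm_Gt _ _) hA

lemma Le_ct (S : Finset ι) (t : ℕ) : (Le S t)ᴴ = Le S t := dg_ct _
lemma Gt_ct (S : Finset ι) (t : ℕ) : (Gt S t)ᴴ = Gt S t := dg_ct _

lemma Le_sq (S : Finset ι) (t : ℕ) : Le S t * Le S t = Le S t := by
  rw [Le, dg_mul]
  refine dg_congr fun y => ?_
  split_ifs <;> simp

noncomputable def rfn (G : Finset (Finset ι)) (y : ι → Bool) : ℝ :=
  ∏ g ∈ G, (1 - 2 * if cnt g y ≤ 0 then 1 else 0)

noncomputable def refl (G : Finset (Finset ι)) : Mt ι := dg (rfn G)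

lemma rfn_sq (G : Finset (Finset ι)) (y) : rfn G y * rfn G y = 1 := by
  rw [rfn, ← Finset.prod_mul_distrib]
  refine Finset.prod_eq_one fun g _ => ?_
  split_ifs <;> norm_num

lemma refl_ct (G : Finset (Finset ι)) : (refl G)ᴴ = refl G := dg_ct _

lemma refl_isUn (G : Finset (Finset ι)) : IsUn (refl G) := by
  have : refl G * refl G = 1 := by
    rw [refl, dg_mul, ← dg_one]; exact dg_congr (rfn_sq G)
  constructor <;> rw [refl_ct, this]

lemma refl_empty : refl (∅ : Finset (Finset ι)) = 1 := by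
  rw [refl, ← dg_one]; exact dg_congr fun y => by simp [rfn]

def Dj (G : Finset (Finset ι)) : Prop := ∀ g ∈ G, ∀ h ∈ G, g ≠ h → Disjoint g h

inductive Cls : ℕ → Mt ι → Prop
  | base (u : ι → Matrix Bool Bool ℂ) (hu : IsU u) : Cls 0 (tens u)
  | step {d : ℕ} {C : Mt ι} (G : Finset (Finset ι)) (hG : Dj G) (u : ι → Matrix Bool Bool ℂ)
      (hu : IsU u) (hC : Cls d C) : Cls (d + 1) (C * refl G * tens u)

lemma Cls.isUn {d : ℕ} {C : Mt ι} (h : Cls d C) : IsUn C := by
  induction h with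
  | base u hu => exact hu.isUn
  | step G hG u hu hC ih => exact (ih.mul (refl_isUn G)).mul hu.isUn

lemma Cls.mul_tens {d : ℕ} {C : Mt ι} (h : Cls d C) {v : ι → Matrix Bool Bool ℂ} (hv : IsU v) :
    Cls d (C * tens v) := by
  cases h with
  | base u hu => rw [tens_mul]; exact .base _ (hu.mul hv)
  | step G hG u hu hC => rw [mul_assoc, tens_mul]; exact .step G hG _ (hu.mul hv) hC

lemma Cls.mul {d d' : ℕ} {C C' : Mt ι} (h : Cls d C) (h' : Cls d' C') :
    Cls (d + d') (C * C') := by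
  induction h' with
  | base u hu => exact h.mul_tens hu
  | step G hG u hu hC ih =>
    rw [← mul_assoc, ← mul_assoc]
    exact .step G hG u hu ih

lemma Cls.one : Cls 0 (1 : Mt ι) := by
  rw [← tens_one]; exact .base _ IsU.one

lemma Cls.refl {G : Finset (Finset ι)} (hG : Dj G) : Cls 1 (refl G) := by
  have := Cls.step G hG _ IsU.one (Cls.one (ι := ι))
  rwa [tens_one, one_mul, mul_one] at this

lemma Cls.ct {d : ℕ} {C : Mt ι} (h : Cls d C) : Cls d Cᴴ := by
  induction h with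
  | base u hu => rw [tens_ct]; exact .base _ hu.ct
  | @step d C G hG u hu hC ih =>
    rw [conjTranspose_mul, conjTranspose_mul, tens_ct, refl_ct]
    have := (Cls.base _ hu.ct).mul ((Cls.refl hG).mul ih)
    rwa [zero_add, add_comm] at this

lemma Cls.succ {d : ℕ} {C : Mt ι} (h : Cls d C) : Cls (d + 1) C := by
  have := h.mul (Cls.refl (G := ∅) (by intro g hg; simp at hg))
  rwa [refl_empty, mul_one] at this

lemma Cls.mono {d d' : ℕ} {C : Mt ι} (h : Cls d C) (hd : d ≤ d') : Cls d' C := by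
  induction hd with
  | refl => exact h
  | step _ ih => exact ih.succ

def Loc (X : Mt ι) (T : Finset ι) : Prop := ∀ y z, X y z ≠ 0 → ∀ q, q ∉ T → y q = z q

def Supp (X : Mt ι) (T : Finset ι) : Prop :=
  ∀ u, IsU u → Loc (tens u * X * (tens u)ᴴ) T

lemma Supp.conj {X : Mt ι} {T : Finset ι} (h : Supp X T) {v : ι → Matrix Bool Bool ℂ}
    (hv : IsU v) : Supp (tens v * X * (tens v)ᴴ) T := by
  intro u hu
  have := h _ (hu.mul hv)
  rw [← tens_mul, conjTranspose_mul] at this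
  simpa only [mul_assoc] using this

lemma Supp.loc {X : Mt ι} {T : Finset ι} (h : Supp X T) : Loc X T := by
  have := h _ IsU.one
  rwa [tens_one, conjTranspose_one, one_mul, mul_one] at this

lemma loc_tens {w : ι → Matrix Bool Bool ℂ} {T : Finset ι} (h : ∀ q, q ∉ T → w q = 1) :
    Loc (tens w) T := by
  intro y z hyz q hq
  by_contra hne
  apply hyz
  rw [tens_apply]
  exact Finset.prod_eq_zero (Finset.mem_univ q) (by rw [h q hq]; exact one_apply_ne hne)

lemma supp_tens {w : ι → Matrix Bool Bool ℂ} {T : Finset ι} (h : ∀ q, q ∉ T → w q = 1) :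
    Supp (tens w) T := by
  intro u hu
  rw [tens_ct, tens_mul, tens_mul]
  exact loc_tens fun q hq => by simp only [h q hq, mul_one, (hu q).1]

end Vale.Agent.P368
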