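import Vale.Agent.P368.Poly

namespace Vale.Agent.P368

open Matrix
open scoped Matrix.Norms.L2Operator

set_option linter.unusedSectionVars false

variable (ι : Type) [Fintype ι] [DecidableEq ι]

def SB (d lam : ℕ) : Prop :=
  ∀ C : Mt ι, Cls d C → ∀ (S T : Finset ι) (X : Mt ι), Supp X T → ‖X‖ ≤ 1 → ∀ t l : ℕ,
    ‖Gt S (lam * (t + T.card + l)) * (C * X * Cᴴ) * Le S t‖ ≤ (1 / 2) ^ l

def Hyp (d U l : ℕ) : Prop :=
  ∀ C : Mt ι, Cls d C → ∀ S S' : Finset ι,
    ‖Gt S U * (C * Le S' 0 * Cᴴ) * Le S 0‖ ≤ (1 / 2) ^ l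

def BB (d lam : ℕ) : Prop :=
  ∀ C : Mt ι, Cls d C → ∀ (S S' : Finset ι) (t l : ℕ),
    ‖Gt S (lam * (t + l)) * (C * Le S' 0 * Cᴴ) * Le S t‖ ≤ (1 / 2) ^ l

variable {ι}

lemma half_pow_anti {m n : ℕ} (h : m ≤ n) : ((1 : ℝ) / 2) ^ n ≤ (1 / 2) ^ m :=
  pow_le_pow_of_le_one (by norm_num) (by norm_num) h

lemma two_pow_mul_half (m n : ℕ) : (2 : ℝ) ^ m * (1 / 2) ^ (m + n) = (1 / 2) ^ n := by
  rw [pow_add, ← mul_assoc, ← mul_pow]; norm_num

lemma IsUn.norm_conj {C X : Mt ι} (hC : IsUn C) {b : ℝ} (hX : ‖X‖ ≤ b) : ‖C * X * Cᴴ‖ ≤ b :=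
  nmul_right (nmul_left hC.norm_le hX) hC.ct.norm_le

lemma cnt_le (S : Finset ι) (y) : cnt S y ≤ Fintype.card ι :=
  (Finset.card_filter_le _ _).trans (Finset.card_le_univ S)

lemma hyp_triv (d : ℕ) {U : ℕ} (l : ℕ) (hU : Fintype.card ι ≤ U) : Hyp ι d U l := by
  intro C _ S S'
  have : Gt S U = 0 := by
    rw [Gt]
    ext y z
    simp [dg, diagonal_apply, not_lt.mpr ((cnt_le S y).trans hU)]
  rw [this]; simp

lemma hyp_step {d lam L a l : ℕ} (hL : 1 ≤ L) (ha : 1 ≤ a) (hl : 1 ≤ l) (hlam : 1 ≤ lam)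
    (hN : Fintype.card ι + 1 ≤ 2 ^ L) (hSB : SB ι d lam)
    (hH : Hyp ι d (a ^ 2 * l) (31 * L ^ 2 * lam * a * l)) :
    Hyp ι d (31 * L ^ 2 * lam * a * l) l := by
  intro C hC S S'
  obtain ⟨p, hp0, hp1, hp2⟩ := poly_exists (ι := ι) hL ha hl hN
  set W := 31 * L ^ 2 * lam * a * l with hW
  set β := 21 * L ^ 2 * a * l with hβ
  have hU := hC.isUn
  set Y := Gt S W
  set PA := Le S 0
  set PB := C * Le S' 0 * Cᴴ with hPB
  have hPBn : ‖PB‖ ≤ 1 := hU.norm_conj (norm_Le _ _)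
  have hPBct : PBᴴ = PB := by
    rw [hPB, conjTranspose_mul, conjTranspose_mul, conjTranspose_conjTranspose, Le_ct, mul_assoc]
  have h4 : 2 * l + 2 ≤ 4 * (L ^ 2 * a * l) := by
    have : 1 * 1 * l ≤ L ^ 2 * a * l :=
      Nat.mul_le_mul_right l (Nat.mul_le_mul (Nat.one_le_pow _ _ hL) ha)
    omega
  have h6 : 6 * L * a * l ≤ 6 * (L ^ 2 * a * l) := by
    have : L * (a * l) ≤ L ^ 2 * (a * l) := Nat.mul_le_mul_right _ (by nlinarith)
    nlinarith
  have hWl : β + (2 * l + 2) ≤ W := by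
    have : 31 * L ^ 2 * 1 * a * l ≤ W :=
      Nat.mul_le_mul_right l (Nat.mul_le_mul_right a (Nat.mul_le_mul_left _ hlam))
    nlinarith
  -- first term
  have e1 : ‖Y * (C * dg (fun y => p (cnt S' y)) * Cᴴ) * PA‖ ≤ (1 / 2) ^ (2 * l + 2) := by
    have := (hp2 S').norm_le (Y * C) (Cᴴ * PA) (e := (1 / 2) ^ (β + (2 * l + 2)))
      (by positivity) (fun T hT => by
        have h := hSB C hC S T (dg (mono T)) (supp_mono T)
          (norm_dg_le zero_le_one (abs_mono_le T)) 0 (β + (2 * l + 2))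
        have hle : lam * (0 + T.card + (β + (2 * l + 2))) ≤ W := by
          have : 0 + T.card + (β + (2 * l + 2)) ≤ 31 * (L ^ 2 * a * l) := by
            have : β = 21 * (L ^ 2 * a * l) := by rw [hβ]; ring
            omega
          calc _ ≤ lam * (31 * (L ^ 2 * a * l)) := Nat.mul_le_mul_left _ this
            _ = W := by rw [hW]; ring
        have := norm_Gt_mono S hle h
        simpa only [mul_assoc] using this)
    rw [two_pow_mul_half] at this
    simpa only [mul_assoc] using this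
  -- second term
  set e : (ι → Bool) → ℝ := fun y => p (cnt S' y) - if cnt S' y ≤ 0 then 1 else 0 with he
  have e2 : ‖dg e * Le S' (a ^ 2 * l)‖ ≤ (1 / 2) ^ (2 * l + 2) := by
    rw [Le, dg_mul]
    refine norm_dg_le (by positivity) fun y => ?_
    by_cases h0 : cnt S' y ≤ 0
    · have : cnt S' y = 0 := by omega
      simp [he, this, hp0]
    · by_cases h1 : cnt S' y ≤ a ^ 2 * l
      · simp only [he, if_neg h0, if_pos h1, sub_zero, mul_one]
        exact hp1 _ (by omega) h1 (cnt_le _ _)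
      · simp only [if_neg h1, mul_zero, abs_zero]; positivity
  have e3 : ‖dg e‖ ≤ 2 ^ β := by
    refine norm_dg_le (by positivity) fun y => ?_
    by_cases h0 : cnt S' y ≤ 0
    · have : cnt S' y = 0 := by omega
      simp [he, this, hp0]
    · simp only [he, if_neg h0, sub_zero]
      exact (hp2 S').abs_le y
  have e4 : ‖Gt S' (a ^ 2 * l) * (Cᴴ * PA * C) * Le S' 0‖ ≤ (1 / 2) ^ (β + (2 * l + 2)) := by
    have := hH Cᴴ hC.ct S' S
    rw [conjTranspose_conjTranspose] at this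
    exact this.trans (half_pow_anti hWl)
  have e5 : ‖dg e * (Cᴴ * PA * C) * Le S' 0‖ ≤ 2 * (1 / 2) ^ (2 * l + 2) := by
    have hsplit : dg e * (Cᴴ * PA * C) * Le S' 0 =
        dg e * (Gt S' (a ^ 2 * l) * (Cᴴ * PA * C) * Le S' 0) +
        dg e * Le S' (a ^ 2 * l) * ((Cᴴ * PA * C) * Le S' 0) := by
      calc _ = dg e * (Gt S' (a ^ 2 * l) + Le S' (a ^ 2 * l)) * (Cᴴ * PA * C) * Le S' 0 := by
            rw [Gt_add_Le, mul_one]
        _ = _ := by noncomm_ring
    rw [hsplit]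
    have n1 := nmul_le e3 e4
    rw [two_pow_mul_half] at n1
    have n2 : ‖(Cᴴ * PA * C) * Le S' 0‖ ≤ 1 :=
      nmul_left (nmul_left (nmul_left hU.ct.norm_le (norm_Le _ _)) hU.norm_le) (norm_Le _ _)
    have n3 := nmul_right e2 n2
    linarith [norm_add_le (dg e * (Gt S' (a ^ 2 * l) * (Cᴴ * PA * C) * Le S' 0))
      (dg e * Le S' (a ^ 2 * l) * ((Cᴴ * PA * C) * Le S' 0))]
  have hde : dg e = dg (fun y => p (cnt S' y)) - Le S' 0 := by rw [he, dg_sub]; rfl
  have key : Y * PB * PA * PB = Y * (C * dg (fun y => p (cnt S' y)) * Cᴴ) * PA * PB -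
      Y * (C * (dg e * (Cᴴ * PA * C) * Le S' 0) * Cᴴ) := by
    rw [hde, hPB]; noncomm_ring
  have e6 : ‖Y * PB * PA * PB‖ ≤ 3 * (1 / 2) ^ (2 * l + 2) := by
    rw [key]
    have n1 := nmul_right e1 hPBn
    have n2 := nmul_left (norm_Gt S W) (hU.norm_conj e5)
    linarith [norm_sub_le (Y * (C * dg (fun y => p (cnt S' y)) * Cᴴ) * PA * PB)
      (Y * (C * (dg e * (Cᴴ * PA * C) * Le S' 0) * Cᴴ))]
  have e7 : ‖Y * PB * PA‖ * ‖Y * PB * PA‖ ≤ 3 * (1 / 2) ^ (2 * l + 2) := by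
    have h := l2_opNorm_conjTranspose_mul_self (Y * PB * PA)ᴴ
    rw [conjTranspose_conjTranspose, l2_opNorm_conjTranspose] at h
    rw [← h, conjTranspose_mul, conjTranspose_mul, hPBct, Le_ct, Gt_ct]
    have : Y * PB * PA * (PA * (PB * Y)) = Y * PB * PA * PB * Y := by
      calc _ = Y * PB * (PA * PA) * PB * Y := by noncomm_ring
        _ = _ := by rw [Le_sq]
    rw [this]
    exact nmul_right e6 (norm_Gt _ _)
  have e8 : (3 : ℝ) * (1 / 2) ^ (2 * l + 2) ≤ (1 / 2) ^ l * (1 / 2) ^ l := by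
    rw [← pow_add, pow_add, two_mul]
    have : (0 : ℝ) ≤ (1 / 2) ^ (l + l) := by positivity
    nlinarith
  exact (mul_self_le_mul_self_iff (norm_nonneg _) (by positivity)).mpr (e7.trans e8)

lemma hyp_iter {d lam L s : ℕ} (hL : 1 ≤ L) (hs : 1 ≤ s) (hlam : 1 ≤ lam)
    (hN : Fintype.card ι + 1 ≤ 2 ^ L) (hSB : SB ι d lam) (I : ℕ) :
    ∀ l, 1 ≤ l → Fintype.card ι ≤ s ^ (I + 1) * l →
      Hyp ι d ((31 * L ^ 2 * lam) ^ (2 * I) * s * l) l := by
  have hG : 1 ≤ 31 * L ^ 2 * lam := by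
    have := Nat.mul_le_mul (Nat.one_le_pow 2 _ hL) hlam
    nlinarith
  set Γ := 31 * L ^ 2 * lam with hΓ
  induction I with
  | zero => intro l _ h; exact hyp_triv d l (by simpa using h)
  | succ I ih =>
    intro l hl h
    have ha : 1 ≤ Γ ^ (2 * I + 1) * s := Nat.mul_pos (Nat.pow_pos hG) hs
    have hW : Γ ^ (2 * (I + 1)) * s * l = 31 * L ^ 2 * lam * (Γ ^ (2 * I + 1) * s) * l := by
      rw [← hΓ]; ring
    rw [hW]
    refine hyp_step hL ha hl hlam hN hSB ?_
    rw [← hW]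
    have := ih (Γ ^ (2 * (I + 1)) * s * l) (Nat.mul_pos (Nat.mul_pos (Nat.pow_pos hG) hs) hl)
      (h.trans (by
        have : 1 ≤ Γ ^ (2 * (I + 1)) := Nat.pow_pos hG
        calc s ^ (I + 1 + 1) * l = s ^ (I + 1) * (1 * s * l) := by ring
          _ ≤ _ := by gcongr))
    convert this using 1
    ring

lemma card_small (t : ℕ) {L : ℕ} (hN : Fintype.card ι + 1 ≤ 2 ^ L) (S : Finset ι) :
    (S.powerset.filter fun T => T.card ≤ t).card ≤ 2 ^ (L * t) := by
  have h1 : (S.powerset.filter fun T => T.card ≤ t) =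
      (Finset.range (t + 1)).biUnion fun j => S.powersetCard j := by
    ext T
    simp only [Finset.mem_filter, Finset.mem_powerset, Finset.mem_biUnion, Finset.mem_range,
      Finset.mem_powersetCard]
    constructor
    · rintro ⟨h, h'⟩; exact ⟨_, by omega, h, rfl⟩
    · rintro ⟨j, hj, h, rfl⟩; exact ⟨h, by omega⟩
  rw [h1]
  refine Finset.card_biUnion_le.trans ?_
  calc _ ≤ ∑ j ∈ Finset.range (t + 1), Fintype.card ι ^ j * 1 ^ (t - j) * t.choose j := by
        refine Finset.sum_le_sum fun j hj => ?_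
        rw [Finset.card_powersetCard, one_pow, mul_one]
        have h2 : 1 ≤ t.choose j := Nat.choose_pos (by simp at hj; omega)
        have h3 : S.card.choose j ≤ Fintype.card ι ^ j :=
          (Nat.choose_le_pow _ _).trans (Nat.pow_le_pow_left (Finset.card_le_univ S) j)
        nlinarith
    _ = (Fintype.card ι + 1) ^ t := by rw [add_pow]; simp
    _ ≤ _ := by rw [pow_mul]; exact Nat.pow_le_pow_left hN t

lemma bb_of_hyp {d lam L : ℕ} (hL : 1 ≤ L) (hlam : 1 ≤ lam)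
    (hN : Fintype.card ι + 1 ≤ 2 ^ L) (hH : ∀ l, 1 ≤ l → Hyp ι d (lam * l) l) :
    BB ι d (2 * L * lam) := by
  intro C hC S S' t l
  have hU := hC.isUn
  by_cases h0 : l = 0
  · subst h0
    simpa using nmul_left (nmul_left (norm_Gt _ _) (hU.norm_conj (norm_Le _ _))) (norm_Le _ _)
  have hLe : Le S t = ∑ T ∈ S.powerset.filter fun T => T.card ≤ t,
      Le (S \ T) 0 * dg fun y => if S.filter (fun q => y q = false) = T then 1 else 0 := by
    simp only [Le, dg_mul]
    rw [← dg_sum]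
    refine dg_congr fun y => ?_
    have hz : cnt (S \ S.filter fun q => y q = false) y = 0 := by
      rw [cnt, Finset.card_eq_zero, Finset.filter_eq_empty_iff]
      intro q hq hq'
      simp only [Finset.mem_sdiff, Finset.mem_filter] at hq
      exact hq.2 ⟨hq.1, hq'⟩
    simp only [mul_ite, mul_one, mul_zero]
    rw [Finset.sum_ite_eq]
    have hm : (S.filter fun q => y q = false) ∈ (S.powerset.filter fun T => T.card ≤ t) ↔
        cnt S y ≤ t := by
      simp only [Finset.mem_filter, Finset.mem_powerset, cnt]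
      exact ⟨fun h => h.2, fun h => ⟨Finset.filter_subset _ _, h⟩⟩
    by_cases h : cnt S y ≤ t
    · rw [if_pos h, if_pos (hm.mpr h), if_pos hz.le]
    · rw [if_neg h, if_neg (fun hh => h (hm.mp hh))]
  rw [hLe, Finset.mul_sum]
  refine (norm_sum_le _ _).trans ?_
  have hb : ∀ T ∈ S.powerset.filter fun T => T.card ≤ t,
      ‖Gt S (2 * L * lam * (t + l)) * (C * Le S' 0 * Cᴴ) *
        (Le (S \ T) 0 * dg fun y => if S.filter (fun q => y q = false) = T then 1 else 0)‖ ≤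
        (1 / 2) ^ (L * t + l) := by
    intro T hT
    have hT' := (Finset.mem_filter.mp hT).2
    rw [← mul_assoc]
    refine nmul_right ?_ (norm_dg_le zero_le_one fun y => by split_ifs <;> simp)
    have h1 := hH (L * t + l) (by omega) C hC (S \ T) S'
    have h2 : Gt S (2 * L * lam * (t + l)) =
        Gt S (2 * L * lam * (t + l)) * Gt (S \ T) (lam * (L * t + l)) := by
      rw [Gt, Gt, dg_mul]
      refine dg_congr fun y => ?_
      by_cases h3 : 2 * L * lam * (t + l) < cnt S y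
      · have h4 : cnt S y ≤ cnt (S \ T) y + T.card := by
          refine le_trans (Finset.card_le_card ?_) (Finset.card_union_le _ T)
          intro q hq
          simp only [Finset.mem_filter, Finset.mem_union, Finset.mem_sdiff] at hq ⊢
          tauto
        have h5 : lam * (L * t + l) + t ≤ 2 * L * lam * (t + l) := by
          have a1 : 1 * t ≤ L * lam * t := Nat.mul_le_mul_right t (Nat.mul_pos hL hlam)
          have a2 : 1 * (lam * l) ≤ L * (lam * l) := Nat.mul_le_mul_right _ hL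
          nlinarith
        have h6 : lam * (L * t + l) < cnt (S \ T) y := by omega
        simp [h3, h6]
      · simp [h3]
    rw [h2, mul_assoc, mul_assoc, ← mul_assoc (Gt (S \ T) _)]
    exact nmul_left (norm_Gt _ _) h1
  refine (Finset.sum_le_card_nsmul _ _ _ hb).trans ?_
  rw [nsmul_eq_mul, ← two_pow_mul_half (L * t) l]
  refine mul_le_mul_of_nonneg_right ?_ (by positivity)
  exact_mod_cast card_small t hN S

lemma bb_of_sb {d lam L s I : ℕ} (hL : 1 ≤ L) (hs : 1 ≤ s) (hlam : 1 ≤ lam)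
    (hN : Fintype.card ι + 1 ≤ 2 ^ L) (hsI : Fintype.card ι ≤ s ^ (I + 1)) (hSB : SB ι d lam) :
    BB ι d (2 * L * ((31 * L ^ 2 * lam) ^ (2 * I) * s)) := by
  have hG : 1 ≤ 31 * L ^ 2 * lam := by
    have := Nat.mul_le_mul (Nat.one_le_pow 2 _ hL) hlam
    nlinarith
  refine bb_of_hyp hL (Nat.mul_pos (Nat.pow_pos hG) hs) hN fun l hl => ?_
  exact hyp_iter hL hs hlam hN hSB I l hl (hsI.trans (Nat.le_mul_of_pos_right _ hl))

end Vale.Agent.P368
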