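import Mathlib

namespace Vale.Agent.P368

open Matrix

/-- Operators on `N` qubits, in the computational basis. -/
abbrev Op (N : ℕ) : Type := Matrix (Fin N → Bool) (Fin N → Bool) ℂ

/-- Gates: an arbitrary one-qubit unitary, or a generalized Toffoli gate with a nonempty set of
control qubits and a target qubit distinct from them. -/
inductive Gate (N : ℕ) : Type
  | one (q : Fin N) (U : Matrix.unitaryGroup Bool ℂ) : Gate N
  | toffoli (ctrl : Finset (Fin N)) (tgt : Fin N) (hne : ctrl.Nonempty) (hd : tgt ∉ ctrl) : Gate N

/-- The qubits a gate acts on. -/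
def Gate.support {N : ℕ} : Gate N → Finset (Fin N)
  | .one q _ => {q}
  | .toffoli c t _ _ => insert t c

/-- Whether a gate is a multiqubit gate. -/
def Gate.multi {N : ℕ} : Gate N → Bool
  | .one _ _ => false
  | .toffoli _ _ _ _ => true

/-- The matrix of a gate on all `N` qubits. -/
noncomputable def Gate.mat {N : ℕ} : Gate N → Op N
  | .one q U => Matrix.of fun y z => if ∀ i, i ≠ q → y i = z i then U.1 (y q) (z q) else 0
  | .toffoli c t _ _ => Matrix.of fun y z =>
      if y = Function.update z t (xor (z t) (decide (∀ i ∈ c, z i = true))) then 1 else 0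

/-- A layer: gates with pairwise disjoint supports. -/
structure Layer (N : ℕ) : Type where
  gates : List (Gate N)
  disj : gates.Pairwise fun g h => Disjoint g.support h.support

/-- The matrix of a layer. -/
noncomputable def Layer.mat {N : ℕ} (L : Layer N) : Op N := (L.gates.map Gate.mat).prod

/-- The matrix of a circuit, given as the list of its layers (the first layer acts first). -/
noncomputable def circuitMat {N : ℕ} (C : List (Layer N)) : Op N :=
  (C.reverse.map Layer.mat).prod

/-- The entangling depth: the number of layers that contain a multiqubit gate. -/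
def entDepth {N : ℕ} (C : List (Layer N)) : ℕ := C.countP fun L => L.gates.any Gate.multi

/-- The basis state `|x⟩ ⊗ |0⟩^(N-n)`. -/
def input {n : ℕ} (N : ℕ) (x : Fin n → Bool) : Fin N → Bool :=
  fun i => if h : i.1 < n then x ⟨i.1, h⟩ else false

/-- The parity of a bit string. -/
def parity {n : ℕ} (x : Fin n → Bool) : Bool :=
  decide (Odd (Finset.univ.filter fun i => x i = true).card)

/-- The probability that measuring the qubit `out` after the circuit `C` on the input `x`
gives the bit `b`. -/
noncomputable def prob {n N : ℕ} (C : List (Layer N)) (out : Fin N) (x : Fin n → Bool)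
    (b : Bool) : ℝ :=
  ∑ y ∈ Finset.univ.filter (fun y : Fin N → Bool => y out = b),
    ‖(circuitMat C *ᵥ Pi.single (input N x) 1) y‖ ^ 2

/-- The parity correlation: the average over `x` of `Pr[correct] - Pr[wrong]`. -/
noncomputable def parityCorr (n : ℕ) {N : ℕ} (C : List (Layer N)) (out : Fin N) : ℝ :=
  (∑ x : Fin n → Bool, (prob C out x (parity x) - prob C out x (!parity x))) / 2 ^ n

end Vale.Agent.P368
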