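import Vale.Agent.P368.Step
import Vale.Agent.P368.Defs

namespace Vale.Agent.P368

open Matrix
open scoped Matrix.Norms.L2Operator

set_option linter.unusedSectionVars false

variable {ι : Type} [Fintype ι] [DecidableEq ι]

lemma refl_comm {X : Mt ι} {T : Finset ι} (hX : Loc X T) {G : Finset (Finset ι)}
    (hG : ∀ g ∈ G, Disjoint g T) : refl G * X = X * refl G := by
  have h := refl_conj_loc hX G
  rw [Finset.filter_eq_empty_iff.mpr (fun g hg hh => hh (hG g hg)), refl_empty, one_mul,
    mul_one] at h
  have h2 := (refl_isUn G).1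
  rw [refl_ct] at h2
  calc refl G * X = refl G * X * (refl G * refl G) := by rw [h2, mul_one]
    _ = _ := by rw [← mul_assoc, h]

lemma refl_union {G H : Finset (Finset ι)} (h : Disjoint G H) :
    refl G * refl H = refl (G ∪ H) := by
  rw [refl, refl, refl, dg_mul]
  exact dg_congr fun y => by rw [rfn, rfn, rfn, Finset.prod_union h]

/-- Normal form of a layer acting on the qubits in `A`. -/
def NF (A : Finset ι) (b : Bool) (X : Mt ι) : Prop :=
  ∃ (u v : ι → Matrix Bool Bool ℂ) (G : Finset (Finset ι)), IsU u ∧ IsU v ∧ Dj G ∧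
    (∀ q, q ∉ A → u q = 1 ∧ v q = 1) ∧ (∀ g ∈ G, g.Nonempty ∧ g ⊆ A) ∧ (b = false → G = ∅) ∧
    X = tens u * refl G * tens v

lemma NF.mul {A B : Finset ι} {b b' : Bool} {X Y : Mt ι} (hX : NF A b X) (hY : NF B b' Y)
    (hAB : Disjoint A B) : NF (A ∪ B) (b || b') (X * Y) := by
  obtain ⟨u1, v1, G1, hu1, hv1, hG1, h1, h1', hb1, rfl⟩ := hX
  obtain ⟨u2, v2, G2, hu2, hv2, hG2, h2, h2', hb2, rfl⟩ := hY
  have hd : ∀ g ∈ G1, ∀ h ∈ G2, Disjoint g h := fun g hg h hh =>
    Finset.disjoint_of_subset_left (h1' g hg).2 (Finset.disjoint_of_subset_right (h2' h hh).2 hAB)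
  refine ⟨_, _, G1 ∪ G2, hu1.mul hu2, hv1.mul hv2, ?_, ?_, ?_, ?_, ?_⟩
  · intro g hg h hh hne
    rcases Finset.mem_union.mp hg with hg | hg <;> rcases Finset.mem_union.mp hh with hh | hh
    · exact hG1 g hg h hh hne
    · exact hd g hg h hh
    · exact (hd h hh g hg).symm
    · exact hG2 g hg h hh hne
  · intro q hq
    rw [Finset.mem_union, not_or] at hq
    simp [(h1 q hq.1).1, (h1 q hq.1).2, (h2 q hq.2).1, (h2 q hq.2).2]
  · intro g hg
    rcases Finset.mem_union.mp hg with hg | hg
    · exact ⟨(h1' g hg).1, (h1' g hg).2.trans Finset.subset_union_left⟩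
    · exact ⟨(h2' g hg).1, (h2' g hg).2.trans Finset.subset_union_right⟩
  · intro hb
    rw [Bool.or_eq_false_iff] at hb
    rw [hb1 hb.1, hb2 hb.2]; simp
  · have c1 : tens v1 * tens u2 = tens u2 * tens v1 := by
      rw [tens_mul, tens_mul]
      congr 1
      funext q
      by_cases hq : q ∈ A
      · rw [(h2 q (Finset.disjoint_left.mp hAB hq)).1]; simp
      · rw [(h1 q hq).2]; simp
    have c2 : refl G1 * tens u2 = tens u2 * refl G1 :=
      refl_comm (loc_tens fun q hq => (h2 q hq).1) fun g hg =>
        Finset.disjoint_of_subset_left (h1' g hg).2 hAB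
    have c3 : refl G2 * tens v1 = tens v1 * refl G2 :=
      refl_comm (loc_tens fun q hq => (h1 q hq).2) fun g hg =>
        Finset.disjoint_of_subset_left (h2' g hg).2 hAB.symm
    have c4 : Disjoint G1 G2 := by
      rw [Finset.disjoint_left]
      intro g hg hg'
      have := hd g hg g hg'
      rw [disjoint_self] at this
      exact (h1' g hg).1.ne_empty this
    rw [← tens_mul, ← tens_mul, ← refl_union c4]
    calc _ = tens u1 * refl G1 * (tens v1 * tens u2) * refl G2 * tens v2 := by noncomm_ring
      _ = tens u1 * (refl G1 * tens u2) * (tens v1 * refl G2) * tens v2 := by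
          rw [c1]; noncomm_ring
      _ = _ := by rw [c2, ← c3]; noncomm_ring

lemma NF.one : NF (∅ : Finset ι) false 1 :=
  ⟨_, _, ∅, IsU.one, IsU.one, by intro g hg; simp at hg, fun _ _ => ⟨rfl, rfl⟩, by simp,
    fun _ => rfl, by rw [tens_one, refl_empty]; simp⟩

lemma NF.cls {A : Finset ι} {b : Bool} {X : Mt ι} (h : NF A b X) :
    Cls (if b = true then 1 else 0) X := by
  obtain ⟨u, v, G, hu, hv, hG, -, -, hb, rfl⟩ := h
  cases b with
  | true => exact Cls.step G hG v hv (Cls.base u hu)
  | false =>
    rw [hb rfl, refl_empty, mul_one]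
    exact (Cls.base u hu).mul_tens hv

noncomputable def hh : Matrix Bool Bool ℂ :=
  Matrix.of fun a b => if a = false ∧ b = true then ⟨-(1 / 2), -(1 / 2)⟩ else ⟨1 / 2, 1 / 2⟩

lemma hh_unitary : hh * hhᴴ = 1 ∧ hhᴴ * hh = 1 := by
  constructor <;> ext a b <;> cases a <;> cases b <;>
    simp [hh, mul_apply, conjTranspose_apply, Complex.ext_iff] <;> norm_num

noncomputable def n1 : Matrix Bool Bool ℂ := diagonal fun b => if b = true then 1 else 0

lemma hh_n1 (a b : Bool) : (hh * n1 * hhᴴ) a b = if a = b then 1 / 2 else -(1 / 2) := by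
  cases a <;> cases b <;>
    simp [hh, n1, mul_apply, conjTranspose_apply, diagonal_apply, Complex.ext_iff] <;> norm_num

lemma Le_eq_tens (g : Finset ι) : Le g 0 = tens fun q => if q ∈ g then n1 else 1 := by
  ext y z
  rw [tens_apply, Le, dg, diagonal_apply]
  by_cases h : y = z
  · subst h
    rw [if_pos rfl]
    by_cases h' : ∀ q ∈ g, y q = true
    · rw [if_pos ((cnt_le_zero g y).mpr h')]
      symm
      refine Finset.prod_eq_one fun q _ => ?_
      by_cases hq : q ∈ g
      · simp [hq, h' q hq, n1]
      · simp [hq]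
    · rw [if_neg (fun hh => h' ((cnt_le_zero g y).mp hh))]
      push Not at h'
      obtain ⟨q, hq, hq'⟩ := h'
      symm
      refine Finset.prod_eq_zero (Finset.mem_univ q) ?_
      simp [hq, hq', n1]
  · rw [if_neg h]
    obtain ⟨q, hq⟩ := Function.ne_iff.mp h
    symm
    refine Finset.prod_eq_zero (Finset.mem_univ q) ?_
    by_cases hq' : q ∈ g
    · simp [hq', n1, diagonal_apply_ne _ hq]
    · simp [hq', one_apply_ne hq]

lemma refl_single (g : Finset ι) : refl {g} = 1 - (2 : ℂ) • Le g 0 := by
  have : (2 : ℂ) = ((2 : ℝ) : ℂ) := by norm_num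
  rw [this, Le, ← dg_smul, ← dg_one, ← dg_sub, refl]
  exact dg_congr fun y => by simp [rfn]

lemma isU_site (t : ι) {U : Matrix Bool Bool ℂ} (hU : U * Uᴴ = 1 ∧ Uᴴ * U = 1) :
    IsU fun q => if q = t then U else 1 := by
  intro q
  by_cases h : q = t <;> simp [h, hU.1, hU.2]

lemma gate_nf {N : ℕ} (g : Gate N) : NF g.support g.multi g.mat := by
  cases g with
  | one q U =>
    have hU : U.1 * U.1ᴴ = 1 ∧ U.1ᴴ * U.1 = 1 := ⟨U.2.2, U.2.1⟩
    refine ⟨_, _, ∅, isU_site q hU, IsU.one, by intro g hg; simp at hg, ?_, by simp,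
      fun _ => rfl, ?_⟩
    · intro i hi
      simp only [Gate.support, Finset.mem_singleton] at hi
      simp [hi]
    · rw [refl_empty, tens_one, mul_one, mul_one]
      ext y z
      rw [tens_apply, ← Finset.mul_prod_erase _ _ (Finset.mem_univ q)]
      simp only [Gate.mat, of_apply, if_true]
      by_cases h : ∀ i, i ≠ q → y i = z i
      · rw [if_pos h, Finset.prod_eq_one, mul_one]
        intro i hi
        have hi' := Finset.ne_of_mem_erase hi
        rw [if_neg hi', h i hi', one_apply_eq]
      · rw [if_neg h]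
        push Not at h
        obtain ⟨i, hi, hi'⟩ := h
        rw [Finset.prod_eq_zero (Finset.mem_erase.mpr ⟨hi, Finset.mem_univ i⟩), mul_zero]
        simp [hi, one_apply_ne hi']
  | toffoli c t hne hd =>
    refine ⟨_, _, {insert t c}, isU_site t hh_unitary, (isU_site t hh_unitary).ct, ?_, ?_, ?_,
      by simp [Gate.multi], ?_⟩
    · intro g hg h hh hne'
      simp only [Finset.mem_singleton] at hg hh
      exact absurd (hg.trans hh.symm) hne'
    · intro i hi
      simp only [Gate.support, Finset.mem_insert, not_or] at hi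
      simp [hi.1]
    · intro g hg
      simp only [Finset.mem_singleton] at hg
      subst hg
      exact ⟨Finset.insert_nonempty _ _, subset_rfl⟩
    · rw [refl_single, mul_sub, sub_mul, mul_one, mul_smul_comm, smul_mul_assoc, Le_eq_tens,
        tens_mul, tens_mul, tens_mul]
      simp only [((isU_site t hh_unitary) _).1]
      rw [tens_one]
      ext y z
      rw [Matrix.sub_apply, Matrix.smul_apply, tens_apply,
        ← Finset.mul_prod_erase _ _ (Finset.mem_univ t)]
      simp only [Gate.mat, of_apply, if_true, Finset.mem_insert_self, hh_n1, one_apply,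
        Function.eq_update_iff]
      by_cases h : ∀ i, i ≠ t → y i = z i
      · have hyz : y = z ↔ y t = z t := by
          constructor
          · intro e; rw [e]
          · intro e; funext i; by_cases hi : i = t
            · rw [hi, e]
            · exact h i hi
        by_cases hc : ∀ i ∈ c, z i = true
        · rw [Finset.prod_eq_one]
          · simp only [hyz, decide_eq_true hc, and_iff_left h]
            cases y t <;> cases z t <;> norm_num
          · intro i hi
            have hi' := Finset.ne_of_mem_erase hi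
            by_cases hic : i ∈ c
            · simp [hi', hic, h i hi', hc i hic, n1]
            · simp [hi', hic, h i hi']
        · have hc' := hc
          push Not at hc'
          obtain ⟨i, hi, hi'⟩ := hc'
          have hit : i ≠ t := fun e => hd (e ▸ hi)
          rw [Finset.prod_eq_zero (Finset.mem_erase.mpr ⟨hit, Finset.mem_univ i⟩)]
          · simp only [hyz, decide_eq_false hc, and_iff_left h]
            simp
          · simp [hit, hi, h i hit, hi', n1]
      · have h' := h
        push Not at h'
        obtain ⟨i, hi, hi'⟩ := h'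
        have hyz : ¬ y = z := fun e => hi' (by rw [e])
        rw [Finset.prod_eq_zero (Finset.mem_erase.mpr ⟨hi, Finset.mem_univ i⟩)]
        · rw [if_neg (fun hh => h hh.2), if_neg hyz]; simp
        · by_cases hic : i ∈ c
          · simp [hi, hic, n1, one_apply_ne hi']
          · simp [hi, hic, one_apply_ne hi']

lemma list_nf {N : ℕ} (gs : List (Gate N))
    (h : gs.Pairwise fun g h => Disjoint g.support h.support) :
    ∃ A : Finset (Fin N), (∀ q ∈ A, ∃ g ∈ gs, q ∈ g.support) ∧
      NF A (gs.any Gate.multi) (gs.map Gate.mat).prod := by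
  induction gs with
  | nil => exact ⟨∅, by simp, by simpa using NF.one⟩
  | cons g gs ih =>
    rw [List.pairwise_cons] at h
    obtain ⟨A, hA, hN⟩ := ih h.2
    refine ⟨g.support ∪ A, ?_, ?_⟩
    · intro q hq
      rcases Finset.mem_union.mp hq with hq | hq
      · exact ⟨g, by simp, hq⟩
      · obtain ⟨g', hg', hq'⟩ := hA q hq
        exact ⟨g', by simp [hg'], hq'⟩
    · rw [List.map_cons, List.prod_cons, List.any_cons]
      refine (gate_nf g).mul hN ?_
      rw [Finset.disjoint_right]
      intro q hq hq'
      obtain ⟨g', hg', hq''⟩ := hA q hq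
      exact Finset.disjoint_left.mp (h.1 g' hg') hq' hq''

lemma circuit_cls {N : ℕ} (C : List (Layer N)) : Cls (entDepth C) (circuitMat C) := by
  induction C with
  | nil => simpa [entDepth, circuitMat] using Cls.one
  | cons L C ih =>
    obtain ⟨A, -, hA⟩ := list_nf L.gates L.disj
    have := ih.mul hA.cls
    have e1 : circuitMat (L :: C) = circuitMat C * L.mat := by
      simp [circuitMat]
    have e2 : entDepth (L :: C) = entDepth C + if L.gates.any Gate.multi = true then 1 else 0 := by
      simp only [entDepth, List.countP_cons]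
    rw [e1, e2]
    exact this

end Vale.Agent.P368
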