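import Vale.Agent.P368.Circuit

namespace Vale.Agent.P368

open Matrix
open scoped Matrix.Norms.L2Operator

noncomputable def sg (b : Bool) : ℝ := if b = true then -1 else 1

noncomputable def zz : Matrix Bool Bool ℂ := diagonal fun b => (sg b : ℂ)

lemma zz_unitary : zz * zzᴴ = 1 ∧ zzᴴ * zz = 1 := by
  constructor <;> ext a b <;> cases a <;> cases b <;>
    simp [zz, sg, mul_apply, conjTranspose_apply, diagonal_apply]

lemma dg_out {N : ℕ} (out : Fin N) :
    dg (fun y => sg (y out)) = tens fun q => if q = out then zz else 1 := by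
  ext y z
  rw [tens_apply, ← Finset.mul_prod_erase _ _ (Finset.mem_univ out), dg, diagonal_apply]
  by_cases h : y = z
  · subst h
    rw [if_pos rfl, if_pos rfl, Finset.prod_eq_one]
    · simp [zz]
    · intro i hi
      rw [if_neg (Finset.ne_of_mem_erase hi), one_apply_eq]
  · rw [if_neg h]
    obtain ⟨q, hq⟩ := Function.ne_iff.mp h
    by_cases hqo : q = out
    · subst hqo
      simp [zz, diagonal_apply_ne _ hq]
    · rw [Finset.prod_eq_zero (Finset.mem_erase.mpr ⟨hqo, Finset.mem_univ q⟩), mul_zero]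
      rw [if_neg hqo, one_apply_ne hq]

lemma diag_entry {n N : ℕ} (C : List (Layer N)) (out : Fin N) (x : Fin n → Bool) :
    ((circuitMat C)ᴴ * dg (fun y => sg (y out)) * circuitMat C) (input N x) (input N x) =
      ((prob C out x false - prob C out x true : ℝ) : ℂ) := by
  simp only [prob, mulVec_single_one, col_apply]
  rw [mul_apply, Finset.sum_filter, Finset.sum_filter, ← Finset.sum_sub_distrib]
  push_cast
  refine Finset.sum_congr rfl fun y _ => ?_
  rw [dg, mul_diagonal, conjTranspose_apply, mul_right_comm, Complex.star_def,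
    Complex.conj_mul']
  cases y out <;> simp [sg]

noncomputable def vv (n : ℕ) {N : ℕ} (β : Bool) (q : Fin N) : Matrix Bool Bool ℂ :=
  (if β = true then zz else 1) * (if q.1 < n then hh * zz else 1)

lemma vv_isU (n : ℕ) {N : ℕ} (b : Fin N → Bool) : IsU fun q => vv n (b q) q := by
  have h1 : IsU fun q : Fin N => if b q = true then zz else 1 := by
    intro q; by_cases h : b q = true <;> simp [h, zz_unitary.1, zz_unitary.2]
  have h2 : IsU fun q : Fin N => if q.1 < n then hh else 1 := by
    intro q; by_cases h : q.1 < n <;> simp [h, hh_unitary.1, hh_unitary.2]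
  have h3 : IsU fun q : Fin N => if q.1 < n then zz else 1 := by
    intro q; by_cases h : q.1 < n <;> simp [h, zz_unitary.1, zz_unitary.2]
  have := h1.mul (h2.mul h3)
  convert this using 2 with q
  by_cases h : q.1 < n <;> simp [vv, h]

lemma vv_sum (n : ℕ) {N : ℕ} (q : Fin N) (a a' : Bool) :
    ∑ β : Bool, (1 / 2 : ℂ) * (star (vv n β q a false) * vv n β q a' (decide (q.1 < n))) =
      if q.1 < n then (if a = a' then (sg a : ℂ) / 2 else 0)
      else (if a = false ∧ a' = false then 1 else 0) := by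
  by_cases h : q.1 < n <;> cases a <;> cases a' <;>
    simp [vv, h, zz, hh, sg, mul_apply, diagonal_apply, one_apply, Complex.ext_iff] <;> norm_num

lemma prod_sg {n : ℕ} (x : Fin n → Bool) : ∏ i, sg (x i) = sg (parity x) := by
  simp only [sg, parity]
  rw [Finset.prod_ite]
  simp only [Finset.prod_const, one_pow, mul_one, decide_eq_true_eq]
  split_ifs with h
  · exact h.neg_one_pow
  · exact (Nat.not_odd_iff_even.mp h).neg_one_pow

lemma avg_identity {n N : ℕ} (hn : n ≤ N) (M : Mt (Fin N)) :
    ∑ b : Fin N → Bool, (1 / 2 : ℂ) ^ N *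
      ((tens fun q => vv n (b q) q)ᴴ * M * tens fun q => vv n (b q) q) (fun _ => false)
        (fun q => decide (q.1 < n)) =
    (∑ x : Fin n → Bool, (sg (parity x) : ℂ) * M (input N x) (input N x)) / 2 ^ n := by
  have e1 : ∀ b : Fin N → Bool, (1 / 2 : ℂ) ^ N *
      ((tens fun q => vv n (b q) q)ᴴ * M * tens fun q => vv n (b q) q) (fun _ => false)
        (fun q => decide (q.1 < n)) = ∑ y, ∑ z, M y z * ∏ q, (1 / 2 : ℂ) *
          (star (vv n (b q) q (y q) false) * vv n (b q) q (z q) (decide (q.1 < n))) := by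
    intro b
    rw [Finset.sum_comm]
    simp only [mul_apply, conjTranspose_apply, tens_apply, Finset.sum_mul, Finset.mul_sum,
      Finset.prod_mul_distrib, star_prod, Finset.prod_const, Finset.card_univ, Fintype.card_fin]
    refine Finset.sum_congr rfl fun z _ => Finset.sum_congr rfl fun y _ => by ring
  simp only [e1]
  rw [Finset.sum_comm]
  have e2 : ∀ y : Fin N → Bool, ∑ b : Fin N → Bool, ∑ z, M y z * ∏ q, (1 / 2 : ℂ) *
      (star (vv n (b q) q (y q) false) * vv n (b q) q (z q) (decide (q.1 < n))) =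
      M y y * ∏ q : Fin N, if q.1 < n then (sg (y q) : ℂ) / 2
        else (if y q = false then 1 else 0) := by
    intro y
    rw [Finset.sum_comm]
    have e3 : ∀ z : Fin N → Bool, ∑ b : Fin N → Bool, M y z * ∏ q, (1 / 2 : ℂ) *
        (star (vv n (b q) q (y q) false) * vv n (b q) q (z q) (decide (q.1 < n))) =
        M y z * ∏ q : Fin N, if q.1 < n then (if y q = z q then (sg (y q) : ℂ) / 2 else 0)
          else (if y q = false ∧ z q = false then 1 else 0) := by
      intro z
      rw [← Finset.mul_sum]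
      congr 1
      simp only [← vv_sum]
      rw [Finset.prod_univ_sum, Fintype.piFinset_univ]
    simp only [e3]
    rw [Finset.sum_eq_single y]
    · simp
    · intro z _ hz
      obtain ⟨q, hq⟩ := Function.ne_iff.mp hz.symm
      rw [Finset.prod_eq_zero (Finset.mem_univ q), mul_zero]
      rw [if_neg hq, if_neg (fun h : y q = false ∧ z q = false => hq (h.1.trans h.2.symm))]
      simp
    · simp
  simp only [e2]
  have hinj : Function.Injective (input (n := n) N) := by
    intro x x' h
    funext i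
    have := congrFun h (Fin.castLE hn i)
    simpa [input] using this
  rw [← Finset.sum_subset (Finset.subset_univ (Finset.univ.image (input (n := n) N))),
    Finset.sum_image fun x _ x' _ h => hinj h, Finset.sum_div]
  · refine Finset.sum_congr rfl fun x _ => ?_
    have e4 : (∏ q : Fin N, if q.1 < n then (sg (input N x q) : ℂ) / 2
        else (if input N x q = false then 1 else 0)) = ∏ i : Fin n, (sg (x i) : ℂ) / 2 := by
      rw [← Finset.prod_subset (Finset.subset_univ (Finset.univ.image (Fin.castLE hn))),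
        Finset.prod_image fun i _ j _ h => Fin.castLE_injective hn h]
      · refine Finset.prod_congr rfl fun i _ => ?_
        simp [input]
      · intro q _ hq
        have : ¬ q.1 < n := fun h => hq (Finset.mem_image.mpr ⟨⟨q.1, h⟩, Finset.mem_univ _, rfl⟩)
        simp [input, this]
    rw [e4, Finset.prod_div_distrib, ← Complex.ofReal_prod, prod_sg]
    simp only [Finset.prod_const, Finset.card_univ, Fintype.card_fin]
    ring
  · intro y _ hy
    have : ∃ q : Fin N, ¬ q.1 < n ∧ y q = true := by
      by_contra hc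
      push Not at hc
      refine hy (Finset.mem_image.mpr ⟨fun i => y (Fin.castLE hn i), Finset.mem_univ _, ?_⟩)
      funext q
      by_cases h : q.1 < n
      · simp only [input, dif_pos h]; rfl
      · simp only [input, dif_neg h]
        exact (Bool.eq_false_iff.mpr (hc q (not_lt.mp h))).symm
    obtain ⟨q, hq, hq'⟩ := this
    rw [Finset.prod_eq_zero (Finset.mem_univ q), mul_zero]
    simp [hq, hq']

lemma corr_le {n N d lam l : ℕ} (hn : n ≤ N) (hSB : SB (Fin N) d lam) (hl : lam * (1 + l) < n)
    (C : List (Layer N)) (hC : entDepth C ≤ d) (out : Fin N) :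
    |parityCorr n C out| ≤ (1 / 2) ^ l := by
  set M := (circuitMat C)ᴴ * dg (fun y => sg (y out)) * circuitMat C with hM
  have h1 := avg_identity hn M
  have h2 : (∑ x : Fin n → Bool, (sg (parity x) : ℂ) * M (input N x) (input N x)) / 2 ^ n =
      (parityCorr n C out : ℂ) := by
    simp only [hM, diag_entry, parityCorr]
    push_cast
    congr 1
    refine Finset.sum_congr rfl fun x _ => ?_
    cases parity x <;> simp [sg]
  rw [h2] at h1
  rw [← Real.norm_eq_abs, ← Complex.norm_real, ← h1]
  refine (norm_sum_le _ _).trans ?_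
  refine (Finset.sum_le_card_nsmul _ _ ((1 / 2) ^ N * (1 / 2) ^ l) ?_).trans ?_
  · intro b _
    rw [norm_mul, norm_pow]
    refine mul_le_mul (by simp) ?_ (norm_nonneg _) (by positivity)
    set S : Finset (Fin N) := Finset.univ.filter fun q => q.1 < n
    have hc := (((circuit_cls C).mono hC).mul_tens (vv_isU n b)).ct
    have hs : Supp (dg fun y => sg (y out)) {out} := by
      rw [dg_out]
      exact supp_tens fun q hq => if_neg (by simpa using hq)
    have h3 := hSB _ hc S {out} _ hs
      (norm_dg_le zero_le_one fun y => by cases y out <;> simp [sg]) 0 l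
    refine le_trans (le_of_eq ?_) ((entry_le _ (fun _ => false)
      (fun q => decide (q.1 < n))).trans h3)
    have c1 : cnt S (fun q => decide (q.1 < n)) ≤ 0 := by
      rw [cnt_le_zero]; intro q hq; simpa [S] using hq
    have c2 : lam * (0 + ({out} : Finset (Fin N)).card + l) < cnt S fun _ => false := by
      have : n ≤ cnt S fun _ => false := by
        have h4 : Finset.univ.image (Fin.castLE hn) ⊆ S.filter fun _ => false = false := by
          intro q hq
          obtain ⟨i, -, rfl⟩ := Finset.mem_image.mp hq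
          simp [S]
        have h5 := Finset.card_le_card h4
        rwa [Finset.card_image_of_injective _ (Fin.castLE_injective hn), Finset.card_univ,
          Fintype.card_fin] at h5
      rw [Finset.card_singleton, zero_add]
      omega
    simp only [Gt, Le, dg, mul_diagonal, diagonal_mul, if_pos c1, if_pos c2]
    simp only [hM, dg, conjTranspose_mul, conjTranspose_conjTranspose, mul_assoc]
    simp
  · rw [nsmul_eq_mul, Finset.card_univ, Fintype.card_fun, Fintype.card_bool, Fintype.card_fin,
      ← mul_assoc]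
    push_cast
    rw [← mul_pow]; norm_num

theorem corr_small_aux (d c : ℕ) {δ : ℝ} (hδ : 0 < δ) (hδ1 : δ ≤ 1) : ∃ n0 : ℕ, ∀ n, n0 ≤ n → ∀ N, n ≤ N →
    N ≤ n ^ c → ∀ C : List (Layer N), entDepth C ≤ d → ∀ out : Fin N,
      |parityCorr n C out| ≤ Real.exp (-(n : ℝ) ^ (1 - δ)) := by
  obtain ⟨K, hK, h⟩ := sb_all d (δ / 2 / (c + 1)) (by positivity)
  have ht : Filter.Tendsto (fun n : ℕ => (n : ℝ) ^ (δ / 2)) Filter.atTop Filter.atTop :=
    (tendsto_rpow_atTop (half_pos hδ)).comp tendsto_natCast_atTop_atTop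
  obtain ⟨n1, hn1⟩ := Filter.eventually_atTop.mp (ht.eventually_gt_atTop (4 * K))
  refine ⟨max n1 2, fun n hn N hnN hN C hC out => ?_⟩
  have hn2 : 2 ≤ n := le_trans (le_max_right _ _) hn
  have hnR : (1 : ℝ) ≤ n := by exact_mod_cast (by omega : 1 ≤ n)
  obtain ⟨lam, -, h2, h3⟩ := h N
  set y := (n : ℝ) ^ (1 - δ) with hy
  have hy1 : 1 ≤ y := Real.one_le_rpow hnR (by linarith)
  have hN1 : (N : ℝ) + 1 ≤ (n : ℝ) ^ ((c : ℝ) + 1) := by
    have : N + 1 ≤ n ^ (c + 1) := by
      have : 1 ≤ n ^ c := Nat.pow_pos (by omega)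
      rw [pow_succ]; nlinarith
    have h' : ((N + 1 : ℕ) : ℝ) ≤ ((n ^ (c + 1) : ℕ) : ℝ) := by exact_mod_cast this
    rw [Nat.cast_pow, ← Real.rpow_natCast] at h'
    push_cast at h'
    exact h'
  have hlam : (lam : ℝ) ≤ K * (n : ℝ) ^ (δ / 2) := by
    refine h2.trans (mul_le_mul_of_nonneg_left ?_ hK)
    refine (Real.rpow_le_rpow (by positivity) hN1 (by positivity)).trans (le_of_eq ?_)
    rw [← Real.rpow_mul (by positivity)]
    congr 1
    field_simp
  have hl : (⌈2 * y⌉₊ : ℝ) < 2 * y + 1 := Nat.ceil_lt_add_one (by positivity)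
  have hlt : lam * (1 + ⌈2 * y⌉₊) < n := by
    have e : (n : ℝ) = (n : ℝ) ^ (δ / 2) * ((n : ℝ) ^ (δ / 2) * y) := by
      rw [hy, ← Real.rpow_add (by positivity), ← Real.rpow_add (by positivity)]
      ring_nf
      simp
    have h4 := hn1 n (le_trans (le_max_left _ _) hn)
    have h5 : 0 < (n : ℝ) ^ (δ / 2) := by positivity
    have : (lam : ℝ) * (1 + ⌈2 * y⌉₊) < n := by
      calc (lam : ℝ) * (1 + ⌈2 * y⌉₊) ≤ K * (n : ℝ) ^ (δ / 2) * (4 * y) :=
            mul_le_mul hlam (by linarith) (by positivity) (by positivity)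
        _ = 4 * K * ((n : ℝ) ^ (δ / 2) * y) := by ring
        _ < (n : ℝ) ^ (δ / 2) * ((n : ℝ) ^ (δ / 2) * y) :=
            mul_lt_mul_of_pos_right h4 (by positivity)
        _ = n := e.symm
    exact_mod_cast this
  refine (corr_le hnN h3 hlt C hC out).trans ?_
  have h6 : ((1 : ℝ) / 2) ^ ⌈2 * y⌉₊ = Real.exp (-(⌈2 * y⌉₊ * Real.log 2)) := by
    rw [Real.exp_neg, Real.exp_nat_mul, Real.exp_log (by norm_num), one_div, inv_pow]
  rw [h6, Real.exp_le_exp]
  have h7 : 2 * y ≤ ⌈2 * y⌉₊ := Nat.le_ceil _
  nlinarith [Real.log_two_gt_d9]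

theorem corr_small (d c : ℕ) {δ : ℝ} (hδ : 0 < δ) : ∃ n0 : ℕ, ∀ n, n0 ≤ n → ∀ N, n ≤ N →
    N ≤ n ^ c → ∀ C : List (Layer N), entDepth C ≤ d → ∀ out : Fin N,
      |parityCorr n C out| ≤ Real.exp (-(n : ℝ) ^ (1 - δ)) := by
  obtain ⟨n0, h⟩ := corr_small_aux d c (lt_min hδ one_pos) (min_le_right _ _)
  refine ⟨max n0 1, fun n hn N h1 h2 C hC out =>
    (h n (le_trans (le_max_left _ _) hn) N h1 h2 C hC out).trans ?_⟩
  have hnR : (1 : ℝ) ≤ n := by exact_mod_cast le_trans (le_max_right _ _) hn
  rw [Real.exp_le_exp, neg_le_neg_iff]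
  exact Real.rpow_le_rpow_of_exponent_le hnR (by linarith [min_le_left δ 1])

lemma prob_add {n N : ℕ} (C : List (Layer N)) (out : Fin N) (x : Fin n → Bool) (b : Bool) :
    prob C out x b + prob C out x (!b) = 1 := by
  have h := congrFun (congrFun (circuit_cls C).isUn.2 (input N x)) (input N x)
  rw [one_apply_eq, mul_apply] at h
  simp only [conjTranspose_apply, Complex.star_def, Complex.conj_mul'] at h
  have h' : ∑ y, ‖circuitMat C y (input N x)‖ ^ 2 = 1 := by exact_mod_cast h
  simp only [prob, mulVec_single_one, col_apply]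
  rw [← h', Finset.sum_filter, Finset.sum_filter, ← Finset.sum_add_distrib]
  refine Finset.sum_congr rfl fun y _ => ?_
  cases y out <;> cases b <;> simp

theorem no_family : ¬ ∃ (d c : ℕ) (ε : ℝ), 0 < ε ∧ ∀ n : ℕ, 1 ≤ n →
    ∃ (N : ℕ) (C : List (Layer N)) (out : Fin N), n ≤ N ∧ N ≤ c * n ^ c ∧ C.length ≤ d ∧
      ∀ x : Fin n → Bool, 1 / 2 + ε ≤ prob C out x (parity x) := by
  rintro ⟨d, c, ε, hε, h⟩
  obtain ⟨n0, h0⟩ := corr_small d (c + 1) (δ := 1 / 2) (by norm_num)
  have ht : Filter.Tendsto (fun n : ℕ => Real.exp (-(n : ℝ) ^ (1 - 1 / 2 : ℝ))) Filter.atTop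
      (nhds 0) :=
    Real.tendsto_exp_neg_atTop_nhds_zero.comp
      ((tendsto_rpow_atTop (by norm_num)).comp tendsto_natCast_atTop_atTop)
  obtain ⟨n1, h1⟩ := Filter.eventually_atTop.mp (ht.eventually (gt_mem_nhds hε))
  set n := n0 + n1 + c + 1
  obtain ⟨N, C, out, hN1, hN2, hC, hx⟩ := h n (by omega)
  have h2 := h0 n (by omega) N hN1 (hN2.trans (by
    rw [pow_succ, mul_comm]; exact Nat.mul_le_mul_left _ (by omega))) C
    (List.countP_le_length.trans hC) out
  have h3 := h1 n (by omega)
  have h4 : 2 * ε ≤ parityCorr n C out := by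
    rw [parityCorr, le_div_iff₀ (by positivity)]
    have := Finset.card_nsmul_le_sum Finset.univ
      (fun x : Fin n → Bool => prob C out x (parity x) - prob C out x (!parity x)) (2 * ε)
      (fun x _ => by linarith [hx x, prob_add C out x (parity x)])
    rw [Finset.card_univ, Fintype.card_fun, Fintype.card_bool, Fintype.card_fin,
      nsmul_eq_mul] at this
    push_cast at this
    linarith
  linarith [le_abs_self (parityCorr n C out)]

end Vale.Agent.P368
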