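import Vale.Agent.P368.Basic

namespace Vale.Agent.P368

open Matrix
open scoped Matrix.Norms.L2Operator

set_option linter.unusedSectionVars false

variable {ι : Type} [Fintype ι] [DecidableEq ι]

noncomputable def mono (T : Finset ι) (y : ι → Bool) : ℝ :=
  if ∀ q ∈ T, y q = false then 1 else 0

lemma mono_mul (T T' : Finset ι) (y) : mono T y * mono T' y = mono (T ∪ T') y := by
  simp only [mono, Finset.forall_mem_union]
  by_cases h : ∀ q ∈ T, y q = false <;> by_cases h' : ∀ q ∈ T', y q = false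
  · rw [if_pos h, if_pos h', if_pos ⟨h, h'⟩, one_mul]
  · rw [if_neg h', mul_zero, if_neg (fun hh => h' hh.2)]
  · rw [if_neg h, zero_mul, if_neg (fun hh => h hh.1)]
  · rw [if_neg h, zero_mul, if_neg (fun hh => h hh.1)]

lemma abs_mono_le (T : Finset ι) (y) : |mono T y| ≤ 1 := by
  unfold mono; split_ifs <;> simp

lemma supp_mono (T : Finset ι) : Supp (dg (mono T)) T := by
  have : dg (mono T) = tens fun q => if q ∈ T then
      diagonal (fun b : Bool => if b = false then (1 : ℂ) else 0) else 1 := by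
    ext y z
    rw [tens_apply, dg, diagonal_apply]
    by_cases h : y = z
    · subst h
      rw [if_pos rfl, mono]
      by_cases h' : ∀ q ∈ T, y q = false
      · rw [if_pos h']
        symm
        refine Finset.prod_eq_one fun q _ => ?_
        by_cases hq : q ∈ T
        · simp [hq, h' q hq]
        · simp [hq]
      · rw [if_neg h']
        push Not at h'
        obtain ⟨q, hq, hq'⟩ := h'
        symm
        refine Finset.prod_eq_zero (Finset.mem_univ q) ?_
        simp [hq, hq']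
    · rw [if_neg h]
      obtain ⟨q, hq⟩ := Function.ne_iff.mp h
      symm
      refine Finset.prod_eq_zero (Finset.mem_univ q) ?_
      by_cases hq' : q ∈ T
      · simp [hq', diagonal_apply_ne _ hq]
      · simp [hq', one_apply_ne hq]
  rw [this]
  exact supp_tens fun q hq => by simp [hq]

inductive Rep (k : ℕ) : ℝ → ((ι → Bool) → ℝ) → Prop
  | mono (T : Finset ι) (h : T.card ≤ k) : Rep k 1 (mono T)
  | add {b b' : ℝ} {f g : (ι → Bool) → ℝ} : Rep k b f → Rep k b' g →
      Rep k (b + b') (fun y => f y + g y)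
  | smul (c : ℝ) {b : ℝ} {f : (ι → Bool) → ℝ} : Rep k b f → Rep k (|c| * b) (fun y => c * f y)
  | le {b b' : ℝ} {f : (ι → Bool) → ℝ} : Rep k b f → b ≤ b' → Rep k b' f

lemma Rep.nonneg {k : ℕ} {b : ℝ} {f : (ι → Bool) → ℝ} (h : Rep k b f) : 0 ≤ b := by
  induction h with
  | mono => exact zero_le_one
  | add _ _ ih ih' => positivity
  | smul c _ ih => positivity
  | le _ h ih => exact ih.trans h

lemma Rep.congr {k : ℕ} {b : ℝ} {f g : (ι → Bool) → ℝ} (h : Rep k b f) (hfg : ∀ y, f y = g y) :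
    Rep k b g := by
  rwa [← funext hfg]

lemma Rep.deg {k k' : ℕ} {b : ℝ} {f : (ι → Bool) → ℝ} (h : Rep k b f) (hk : k ≤ k') :
    Rep k' b f := by
  induction h with
  | mono T hT => exact .mono T (hT.trans hk)
  | add _ _ ih ih' => exact ih.add ih'
  | smul c _ ih => exact ih.smul c
  | le _ h ih => exact ih.le h

lemma Rep.mono_mul {k k' : ℕ} {b : ℝ} {g : (ι → Bool) → ℝ} (T : Finset ι) (hT : T.card ≤ k)
    (h : Rep k' b g) : Rep (k + k') b (fun y => P368.mono T y * g y) := by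
  induction h with
  | mono T' hT' =>
    exact (Rep.mono (T ∪ T') ((Finset.card_union_le _ _).trans (add_le_add hT hT'))).congr
      fun y => (P368.mono_mul T T' y).symm
  | add _ _ ih ih' => exact (ih.add ih').congr fun y => by ring
  | smul c _ ih => exact (ih.smul c).congr fun y => by ring
  | le _ h ih => exact ih.le h

lemma Rep.mul {k k' : ℕ} {b b' : ℝ} {f g : (ι → Bool) → ℝ} (h : Rep k b f) (h' : Rep k' b' g) :
    Rep (k + k') (b * b') (fun y => f y * g y) := by
  induction h with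
  | mono T hT => simpa using Rep.mono_mul T hT h'
  | add _ _ ih ih' => exact ((ih.add ih').congr fun y => by ring).le (by ring_nf; rfl)
  | smul c _ ih => exact ((ih.smul c).congr fun y => by ring).le (by ring_nf; rfl)
  | le _ h ih => exact ih.le (mul_le_mul_of_nonneg_right h h'.nonneg)

lemma Rep.const (k : ℕ) (c : ℝ) : Rep k |c| (fun _ : ι → Bool => c) := by
  have := (Rep.mono (k := k) (∅ : Finset ι) (by simp)).smul c
  rw [mul_one] at this
  exact this.congr fun y => by simp [P368.mono]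

lemma Rep.pow {k : ℕ} {b : ℝ} {f : (ι → Bool) → ℝ} (h : Rep k b f) (j : ℕ) :
    Rep (j * k) (b ^ j) (fun y => f y ^ j) := by
  induction j with
  | zero => simpa using Rep.const (ι := ι) 0 1
  | succ j ih =>
    have := ih.mul h
    rw [← pow_succ, ← Nat.succ_mul] at this
    exact this.congr fun y => (pow_succ _ _).symm

lemma Rep.cnt (S : Finset ι) : Rep 1 (S.card : ℝ) (fun y => (cnt S y : ℝ)) := by
  induction S using Finset.induction_on with
  | empty => simpa [P368.cnt] using Rep.const (ι := ι) 1 0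
  | insert a S ha ih =>
    have := (Rep.mono (k := 1) {a} (by simp)).add ih
    rw [Finset.card_insert_of_notMem ha]
    refine (this.congr fun y => ?_).le (by push_cast; linarith)
    simp only [P368.cnt, P368.mono, Finset.filter_insert, Finset.mem_singleton, forall_eq]
    split_ifs with h
    · rw [Finset.card_insert_of_notMem (by simp [ha])]; push_cast; ring
    · simp

lemma Rep.abs_le {k : ℕ} {b : ℝ} {f : (ι → Bool) → ℝ} (h : Rep k b f) (y) : |f y| ≤ b := by
  induction h with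
  | mono T _ => exact abs_mono_le T y
  | add _ _ ih ih' => exact (abs_add_le _ _).trans (add_le_add ih ih')
  | smul c _ ih => rw [abs_mul]; exact mul_le_mul_of_nonneg_left ih (abs_nonneg c)
  | le _ h ih => exact ih.trans h

lemma Rep.norm_le {k : ℕ} {b e : ℝ} {f : (ι → Bool) → ℝ} (h : Rep k b f) (A B : Mt ι)
    (he : 0 ≤ e) (hT : ∀ T : Finset ι, T.card ≤ k → ‖A * dg (P368.mono T) * B‖ ≤ e) :
    ‖A * dg f * B‖ ≤ b * e := by
  induction h with
  | mono T h => simpa using hT T h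
  | add _ _ ih ih' =>
    rw [dg_add, mul_add, add_mul, add_mul]
    exact (norm_add_le _ _).trans (add_le_add ih ih')
  | smul c _ ih =>
    rw [dg_smul, mul_smul_comm, smul_mul_assoc, norm_smul, mul_assoc |c|]
    simpa using mul_le_mul_of_nonneg_left ih (abs_nonneg c)
  | le _ h ih => exact ih.trans (mul_le_mul_of_nonneg_right h he)

noncomputable def ch (r : ℕ) (x : ℝ) : ℝ := (Polynomial.Chebyshev.T ℝ (r : ℤ)).eval x

lemma ch_zero (x : ℝ) : ch 0 x = 1 := by simp [ch]
lemma ch_one (x : ℝ) : ch 1 x = x := by simp [ch]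
lemma ch_add_two (r : ℕ) (x : ℝ) : ch (r + 2) x = 2 * (x * ch (r + 1) x) - ch r x := by
  simp only [ch]
  push_cast
  rw [Polynomial.Chebyshev.T_add_two]
  simp [mul_assoc]

lemma ch_abs_le (r : ℕ) {x : ℝ} (hx : |x| ≤ 1) : |ch r x| ≤ 1 :=
  Polynomial.Chebyshev.abs_eval_T_real_le_one _ hx

lemma ch_ge (δ : ℝ) (hδ : 0 ≤ δ) (r : ℕ) :
    1 + (r : ℝ) ^ 2 * δ ≤ ch r (1 + δ) ∧
      ch r (1 + δ) + (2 * r + 1) * δ ≤ ch (r + 1) (1 + δ) := by
  induction r with
  | zero => simp [ch_zero, ch_one]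
  | succ r ih =>
    obtain ⟨h1, h2⟩ := ih
    have h3 : 1 ≤ ch (r + 1) (1 + δ) := by
      have : 0 ≤ (r : ℝ) ^ 2 * δ := by positivity
      have : 0 ≤ (2 * (r : ℝ) + 1) * δ := by positivity
      linarith
    constructor
    · push_cast; nlinarith
    · rw [ch_add_two]; push_cast; nlinarith

lemma Rep.ch {b : ℝ} {f : (ι → Bool) → ℝ} (h : Rep 1 b f) (r : ℕ) :
    Rep r ((2 * b + 1) ^ r) (fun y => ch r (f y)) ∧
      Rep (r + 1) ((2 * b + 1) ^ (r + 1)) (fun y => ch (r + 1) (f y)) := by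
  have hb := h.nonneg
  induction r with
  | zero =>
    constructor
    · simpa [ch_zero] using Rep.const (ι := ι) 0 1
    · simpa [ch_one] using h.le (by linarith : b ≤ 2 * b + 1)
  | succ r ih =>
    refine ⟨ih.2, ?_⟩
    have h1 := ((h.mul ih.2).smul 2).add ((ih.1.deg (k' := 1 + (r + 1)) (by omega)).smul (-1))
    refine ((h1.deg (by omega)).congr fun y => by rw [ch_add_two]; ring).le ?_
    have h2 : (2 * b + 1) ^ r ≤ (2 * b + 1) ^ (r + 1) :=
      pow_le_pow_right₀ (by linarith) (by omega)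
    have h3 : (2 * b + 1) ^ (r + 1 + 1) = (2 * b + 1) ^ (r + 1) * (2 * b + 1) := pow_succ _ _
    rw [h3, abs_neg, abs_one, abs_two]
    nlinarith

noncomputable def qf (l : ℕ) (s : ℝ) : ℝ := ∏ i ∈ Finset.range l, (1 - s / ((i : ℝ) + 1))

lemma Rep.qf {b : ℝ} {f : (ι → Bool) → ℝ} (h : Rep 1 b f) (l : ℕ) :
    Rep l ((1 + b) ^ l) (fun y => qf l (f y)) := by
  have hb := h.nonneg
  induction l with
  | zero => simpa [P368.qf] using Rep.const (ι := ι) 0 1
  | succ l ih =>
    have h1 := (Rep.const (ι := ι) 1 1).add (h.smul (-(1 / ((l : ℝ) + 1))))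
    have h2 : |(1 : ℝ)| + |-(1 / ((l : ℝ) + 1))| * b ≤ 1 + b := by
      rw [abs_one, abs_neg, abs_of_nonneg (by positivity)]
      have : 1 / ((l : ℝ) + 1) ≤ 1 := by
        rw [div_le_one (by positivity)]; linarith [(Nat.cast_nonneg l : (0 : ℝ) ≤ l)]
      nlinarith
    have h3 := ih.mul (h1.le h2)
    rw [← pow_succ] at h3
    refine h3.congr fun y => ?_
    simp only [P368.qf, Finset.prod_range_succ]
    ring

lemma qf_zero (l : ℕ) : qf l 0 = 1 := by simp [qf]

lemma qf_eq_zero {l s : ℕ} (h1 : 1 ≤ s) (h2 : s ≤ l) : qf l s = 0 := by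
  refine Finset.prod_eq_zero (i := s - 1) (Finset.mem_range.mpr (by omega)) ?_
  have : ((s - 1 : ℕ) : ℝ) + 1 = s := by
    rw [Nat.cast_sub h1]; simp
  rw [this, div_self (by positivity), sub_self]

lemma abs_qf_le (l : ℕ) {s N : ℝ} (h0 : 0 ≤ s) (h : s ≤ N) : |qf l s| ≤ (1 + N) ^ l := by
  rw [qf, Finset.abs_prod]
  calc _ ≤ ∏ _i ∈ Finset.range l, (1 + N) := by
        refine Finset.prod_le_prod (fun _ _ => abs_nonneg _) fun i _ => ?_
        have h1 : s / ((i : ℝ) + 1) ≤ s :=
          div_le_self h0 (by linarith [(Nat.cast_nonneg i : (0 : ℝ) ≤ i)])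
        have h2 : 0 ≤ s / ((i : ℝ) + 1) := by positivity
        rw [abs_le]; constructor <;> linarith
    _ = _ := by simp

lemma poly_exists {L a l : ℕ} (hL : 1 ≤ L) (ha : 1 ≤ a) (hl : 1 ≤ l)
    (hN : Fintype.card ι + 1 ≤ 2 ^ L) :
    ∃ p : ℕ → ℝ, p 0 = 1 ∧
      (∀ s, 1 ≤ s → s ≤ a ^ 2 * l → s ≤ Fintype.card ι → |p s| ≤ (1 / 2) ^ (2 * l + 2)) ∧
      ∀ S : Finset ι, Rep (6 * L * a * l) (2 ^ (21 * L ^ 2 * a * l)) (fun y => p (cnt S y)) := by
  set N := Fintype.card ι
  have ha' : (1 : ℝ) ≤ a := by exact_mod_cast ha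
  have hl' : (1 : ℝ) ≤ l := by exact_mod_cast hl
  have hN' : (1 : ℝ) + N ≤ 2 ^ L := by
    have : ((N + 1 : ℕ) : ℝ) ≤ ((2 ^ L : ℕ) : ℝ) := by exact_mod_cast hN
    push_cast at this; linarith
  set c0 := ch a (1 + 2 / (a : ℝ) ^ 2) with hc0
  have hc : 3 ≤ c0 := by
    have := (ch_ge (2 / (a : ℝ) ^ 2) (by positivity) a).1
    rw [mul_div_cancel₀ _ (by positivity)] at this
    linarith
  set j := L * l + (2 * l + 2) with hj
  refine ⟨fun s => qf l s * ((1 / c0) * ch a ((1 + 2 / (a : ℝ) ^ 2) +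
    (-(2 / ((a : ℝ) ^ 2 * l))) * s)) ^ j, ?_, ?_, ?_⟩
  · simp only [Nat.cast_zero, qf_zero, mul_zero, add_zero, one_mul]
    rw [← hc0, one_div_mul_cancel (by linarith), one_pow]
  · intro s h1 h2 h3
    by_cases hs : s ≤ l
    · simp only [qf_eq_zero h1 hs, zero_mul, abs_zero]; positivity
    · have hs' : (l : ℝ) ≤ s := by exact_mod_cast (not_le.mp hs).le
      have h2' : (s : ℝ) ≤ (a : ℝ) ^ 2 * l := by exact_mod_cast h2
      have hx : |(1 + 2 / (a : ℝ) ^ 2) + (-(2 / ((a : ℝ) ^ 2 * l))) * s| ≤ 1 := by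
        have e : (1 + 2 / (a : ℝ) ^ 2) + (-(2 / ((a : ℝ) ^ 2 * l))) * s
            = 1 - 2 * ((s - l) / ((a : ℝ) ^ 2 * l)) := by field_simp; ring
        have e1 : 0 ≤ (s - l) / ((a : ℝ) ^ 2 * l) := div_nonneg (by linarith) (by positivity)
        have e2 : (s - l) / ((a : ℝ) ^ 2 * l) ≤ 1 := by
          rw [div_le_one (by positivity)]; linarith
        rw [e, abs_le]; constructor <;> linarith
      have hq := abs_qf_le l (s := s) (N := N) (by positivity) (by exact_mod_cast h3)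
      have hq' : |qf l s| ≤ 2 ^ (L * l) := by
        rw [pow_mul]; exact hq.trans (pow_le_pow_left₀ (by positivity) hN' l)
      have ht : |(1 / c0) * ch a ((1 + 2 / (a : ℝ) ^ 2) + (-(2 / ((a : ℝ) ^ 2 * l))) * s)|
          ≤ 1 / 2 := by
        rw [abs_mul, abs_of_nonneg (by positivity : 0 ≤ 1 / c0)]
        have h4 : 1 / c0 ≤ 1 / 2 := one_div_le_one_div_of_le (by norm_num) (by linarith)
        have h5 := ch_abs_le a hx
        have h6 : 0 ≤ 1 / c0 := by positivity
        nlinarith [abs_nonneg (ch a ((1 + 2 / (a : ℝ) ^ 2) + (-(2 / ((a : ℝ) ^ 2 * l))) * s))]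
      rw [abs_mul, abs_pow]
      calc _ ≤ 2 ^ (L * l) * (1 / 2) ^ j :=
            mul_le_mul hq' (pow_le_pow_left₀ (abs_nonneg _) ht j) (by positivity) (by positivity)
        _ = _ := by
            rw [hj, pow_add, ← mul_assoc, ← mul_pow]; norm_num
  · intro S
    have hS : Rep 1 (N : ℝ) (fun y => (cnt S y : ℝ)) :=
      (Rep.cnt S).le (by exact_mod_cast Finset.card_le_univ S)
    have hN0 : (0 : ℝ) ≤ N := Nat.cast_nonneg N
    have h1 := (Rep.const (ι := ι) 1 (1 + 2 / (a : ℝ) ^ 2)).add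
      (hS.smul (-(2 / ((a : ℝ) ^ 2 * l))))
    have h2 : |1 + 2 / (a : ℝ) ^ 2| + |-(2 / ((a : ℝ) ^ 2 * l))| * (N : ℝ) ≤ 3 + 2 * (N : ℝ) := by
      have e1 : 2 / (a : ℝ) ^ 2 ≤ 2 := div_le_self (by norm_num) (by nlinarith)
      have e2 : 2 / ((a : ℝ) ^ 2 * l) ≤ 2 :=
        div_le_self (by norm_num) (by nlinarith [mul_le_mul ha' ha' zero_le_one (by linarith)])
      rw [abs_neg, abs_of_nonneg (by positivity), abs_of_nonneg (by positivity)]
      nlinarith
    have h3 := (((h1.le h2).ch a).1.smul (1 / c0)).pow j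
    have h4 := (hS.qf l).mul h3
    have hj5 : j ≤ 5 * L * l := by rw [hj]; nlinarith
    refine (h4.deg ?_).le ?_
    · have : l ≤ L * a * l := by nlinarith [Nat.mul_le_mul hL ha]
      nlinarith [Nat.mul_le_mul_right a hj5]
    · have e1 : |1 / c0| ≤ 1 := by
        rw [abs_of_nonneg (by positivity), div_le_one (by linarith)]; linarith
      have e2 : 2 * (3 + 2 * (N : ℝ)) + 1 ≤ 2 ^ (4 * L) := by
        have : (2 : ℝ) ^ (4 * L) = 2 ^ L * 2 ^ (3 * L) := by rw [← pow_add]; congr 1; ring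
        have h8 : (2 : ℝ) ^ 3 ≤ 2 ^ (3 * L) := pow_le_pow_right₀ (by norm_num) (by omega)
        rw [this]; nlinarith
      have e3 : |1 / c0| * (2 * (3 + 2 * (N : ℝ)) + 1) ^ a ≤ 2 ^ (4 * L * a) := by
        rw [pow_mul]
        have := pow_le_pow_left₀ (by positivity) e2 a
        have h0 : 0 ≤ (2 * (3 + 2 * (N : ℝ)) + 1) ^ a := by positivity
        nlinarith [abs_nonneg (1 / c0)]
      have e4 := pow_le_pow_left₀ (by positivity) e3 j
      have e5 := pow_le_pow_left₀ (by positivity) hN' l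
      calc _ ≤ (2 ^ L) ^ l * (2 ^ (4 * L * a)) ^ j :=
            mul_le_mul e5 e4 (by positivity) (by positivity)
        _ = 2 ^ (L * l + 4 * L * a * j) := by rw [← pow_mul, ← pow_mul, ← pow_add]
        _ ≤ _ := by
            refine pow_le_pow_right₀ (by norm_num) ?_
            have : L * l ≤ L ^ 2 * a * l := by
              nlinarith [Nat.mul_le_mul hL ha, Nat.mul_le_mul_left (L * l) (Nat.mul_le_mul hL ha)]
            nlinarith [Nat.mul_le_mul_left (4 * L * a) hj5]

end Vale.Agent.P368
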