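import Vale.Agent.P368.Boot

namespace Vale.Agent.P368

open Matrix
open scoped Matrix.Norms.L2Operator

set_option linter.unusedSectionVars false

variable {ι : Type} [Fintype ι] [DecidableEq ι]

lemma sb_zero : SB ι 0 1 := by
  intro C hC S T X hX _ t l
  cases hC with
  | base u hu =>
    have hl := hX u hu
    have : Gt S (1 * (t + T.card + l)) * (tens u * X * (tens u)ᴴ) * Le S t = 0 := by
      ext y z
      simp only [Gt, Le, dg, mul_diagonal, diagonal_mul, Matrix.zero_apply]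
      by_cases h : (tens u * X * (tens u)ᴴ) y z = 0
      · rw [h]; simp
      · have h1 : cnt S y ≤ cnt S z + T.card := by
          refine le_trans (Finset.card_le_card ?_) (Finset.card_union_le _ T)
          intro q hq
          simp only [Finset.mem_filter, Finset.mem_union] at hq ⊢
          by_cases hqT : q ∈ T
          · exact Or.inr hqT
          · exact Or.inl ⟨hq.1, by rw [← hl y z h q hqT]; exact hq.2⟩
        by_cases h2 : cnt S z ≤ t
        · rw [if_neg (by omega)]; simp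
        · rw [if_neg h2]; simp
    rw [this]; simp

lemma band_mul {S : Finset ι} {t t1 t2 : ℕ} {A B : Mt ι} {e1 e2 : ℝ} (hA : ‖A‖ ≤ 1)
    (hB : ‖B‖ ≤ 1) (h1 : ‖Gt S t2 * A * Le S t1‖ ≤ e1) (h2 : ‖Gt S t1 * B * Le S t‖ ≤ e2) :
    ‖Gt S t2 * (A * B) * Le S t‖ ≤ e1 + e2 := by
  have : Gt S t2 * (A * B) * Le S t =
      Gt S t2 * A * Le S t1 * (B * Le S t) + Gt S t2 * A * (Gt S t1 * B * Le S t) := by
    calc _ = Gt S t2 * A * (Gt S t1 + Le S t1) * B * Le S t := by
          rw [Gt_add_Le]; noncomm_ring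
      _ = _ := by noncomm_ring
  rw [this]
  exact (norm_add_le _ _).trans (add_le_add (nmul_right h1 (nmul_left hB (norm_Le _ _)))
    (nmul_left (nmul_left (norm_Gt _ _) hA) h2))

lemma cnt_le_zero (g : Finset ι) (y) : cnt g y ≤ 0 ↔ ∀ q ∈ g, y q = true := by
  simp [cnt, Finset.filter_eq_empty_iff]

lemma refl_conj_loc {X : Mt ι} {T : Finset ι} (hX : Loc X T) (G : Finset (Finset ι)) :
    refl G * X * refl G =
      refl (G.filter fun g => ¬ Disjoint g T) * X * refl (G.filter fun g => ¬ Disjoint g T) := by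
  ext y z
  simp only [refl, dg, mul_diagonal, diagonal_mul]
  by_cases h : X y z = 0
  · simp [h]
  have hs : ∀ w, rfn G w = rfn (G.filter fun g => ¬ Disjoint g T) w *
      rfn (G.filter fun g => Disjoint g T) w := by
    intro w
    rw [rfn, rfn, rfn, mul_comm, Finset.prod_filter_mul_prod_filter_not]
  have he : rfn (G.filter fun g => Disjoint g T) y = rfn (G.filter fun g => Disjoint g T) z := by
    refine Finset.prod_congr rfl fun g hg => ?_
    have hd := (Finset.mem_filter.mp hg).2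
    have : cnt g y = cnt g z := by
      unfold cnt
      congr 1
      refine Finset.filter_congr fun q hq => ?_
      rw [hX y z h q (Finset.disjoint_left.mp hd hq)]
    rw [this]
  have h1 := rfn_sq (G.filter fun g => Disjoint g T) z
  have h2 : ((rfn (G.filter fun g => Disjoint g T) z : ℝ) : ℂ) *
      (rfn (G.filter fun g => Disjoint g T) z : ℝ) = 1 := by exact_mod_cast h1
  rw [hs y, hs z, he]
  push_cast
  linear_combination (rfn (G.filter fun g => ¬ Disjoint g T) y : ℂ) * X y z *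
    (rfn (G.filter fun g => ¬ Disjoint g T) z : ℂ) * h2

lemma refl_expand (H : Finset (Finset ι)) :
    refl H = ∑ K ∈ H.powerset, (((-2 : ℝ) ^ K.card : ℝ) : ℂ) • Le (K.biUnion id) 0 := by
  simp only [Le, ← dg_smul]
  rw [← dg_sum, refl]
  refine dg_congr fun y => ?_
  have : ∀ g : Finset ι, (1 - 2 * if cnt g y ≤ 0 then (1 : ℝ) else 0) =
      1 + (-2) * if cnt g y ≤ 0 then (1 : ℝ) else 0 := fun g => by ring
  simp only [rfn, this]
  rw [Finset.prod_one_add]
  refine Finset.sum_congr rfl fun K _ => ?_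
  rw [Finset.prod_mul_distrib, Finset.prod_const]
  congr 1
  rw [Finset.prod_boole]
  simp only [cnt_le_zero, Finset.mem_biUnion, id]
  congr 1
  apply propext
  constructor
  · rintro h q ⟨g, hg, hq⟩; exact h g hg q hq
  · intro h g hg q hq; exact h q ⟨g, hg, hq⟩

lemma card_touch {G : Finset (Finset ι)} (hG : Dj G) (T : Finset ι) :
    (G.filter fun g => ¬ Disjoint g T).card ≤ T.card := by
  have hex : ∀ g ∈ G.filter fun g => ¬ Disjoint g T, ∃ q, q ∈ g ∧ q ∈ T := fun g hg =>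
    Finset.not_disjoint_iff.mp (Finset.mem_filter.mp hg).2
  choose f hf using hex
  refine Finset.card_le_card_of_injective
    (f := fun g : {g // g ∈ G.filter fun g => ¬ Disjoint g T} =>
      (⟨f g.1 g.2, (hf g.1 g.2).2⟩ : {q // q ∈ T})) ?_
  intro g h hgh
  by_contra hne
  have hne' : g.1 ≠ h.1 := fun e => hne (Subtype.ext e)
  have hd := hG g.1 (Finset.mem_filter.mp g.2).1 h.1 (Finset.mem_filter.mp h.2).1 hne'
  have e : f g.1 g.2 = f h.1 h.2 := congrArg Subtype.val hgh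
  exact Finset.disjoint_left.mp hd (hf g.1 g.2).1 (e ▸ (hf h.1 h.2).1)

lemma sb_step {d lam lam' : ℕ} (hlam : 1 ≤ lam) (hlam' : 1 ≤ lam') (hSB : SB ι d lam')
    (hBB : BB ι d lam) : SB ι (d + 1) (13 * lam ^ 2 * lam') := by
  intro C hC S T X hX hXn t l
  by_cases h0 : l = 0
  · subst h0
    simpa using nmul_left (nmul_left (norm_Gt _ _) (hC.isUn.norm_conj hXn)) (norm_Le _ _)
  cases hC with
  | @step _ C G hG u hu hC =>
    have hU := hC.isUn
    set X' := tens u * X * (tens u)ᴴ with hX'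
    have hs : Supp X' T := hX.conj hu
    have hn : ‖X'‖ ≤ 1 := hu.isUn.norm_conj hXn
    set H := G.filter fun g => ¬ Disjoint g T
    have hH : H.card ≤ T.card := card_touch hG T
    set k := T.card
    have e1 : C * refl G * tens u * X * (C * refl G * tens u)ᴴ =
        C * (refl H * X' * refl H) * Cᴴ := by
      rw [← refl_conj_loc hs.loc, conjTranspose_mul, conjTranspose_mul, refl_ct, hX']
      noncomm_ring
    set l' := 4 * k + 2 + l with hl'
    set W := 13 * lam ^ 2 * lam' * (t + k + l) with hW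
    have hterm : ∀ A B : Finset ι,
        ‖Gt S W * (C * (Le A 0 * X' * Le B 0) * Cᴴ) * Le S t‖ ≤ 3 * (1 / 2) ^ l' := by
      intro A B
      have e2 : C * (Le A 0 * X' * Le B 0) * Cᴴ =
          (C * Le A 0 * Cᴴ) * ((C * X' * Cᴴ) * (C * Le B 0 * Cᴴ)) := by
        calc _ = C * Le A 0 * (Cᴴ * C) * X' * (Cᴴ * C) * Le B 0 * Cᴴ := by
              rw [hU.2]; noncomm_ring
          _ = _ := by noncomm_ring
      have b1 := hBB C hC S B t l'
      have b2 := hSB C hC S T X' hs hn (lam * (t + l')) l'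
      have b3 := hBB C hC S A (lam' * (lam * (t + l') + k + l')) l'
      have c1 := band_mul (hU.norm_conj hn) (hU.norm_conj (norm_Le B 0)) b2 b1
      have c2 := band_mul (hU.norm_conj (norm_Le A 0))
        (nmul_left (hU.norm_conj hn) (hU.norm_conj (norm_Le B 0))) b3 c1
      rw [e2]
      refine (norm_Gt_mono S ?_ c2).trans (by linarith)
      set σ := t + k + l
      have a1 : t + l' ≤ 4 * σ := by omega
      have a2 : lam * (t + l') ≤ lam * (4 * σ) := Nat.mul_le_mul_left _ a1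
      have a3 : σ ≤ lam * σ := Nat.le_mul_of_pos_left _ hlam
      have a4 : lam * (t + l') + k + l' ≤ 9 * (lam * σ) := by
        have : k + l' ≤ 5 * σ := by omega
        nlinarith
      have a5 : lam' * (lam * (t + l') + k + l') ≤ lam' * (9 * (lam * σ)) :=
        Nat.mul_le_mul_left _ a4
      have a6 : lam * σ ≤ lam' * (lam * σ) := Nat.le_mul_of_pos_left _ hlam'
      have a7 : lam' * (lam * (t + l') + k + l') + l' ≤ 13 * (lam' * (lam * σ)) := by
        have : l' ≤ 4 * σ := by omega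
        nlinarith
      calc _ ≤ lam * (13 * (lam' * (lam * σ))) := Nat.mul_le_mul_left _ a7
        _ = W := by rw [hW]; ring
    rw [e1, refl_expand]
    simp only [Finset.sum_mul, Finset.mul_sum, smul_mul_assoc, mul_smul_comm]
    have hc : ∀ K ∈ H.powerset, ‖(((-2 : ℝ) ^ K.card : ℝ) : ℂ)‖ ≤ 2 ^ k := by
      intro K hK
      have : K.card ≤ k := (Finset.card_le_card (Finset.mem_powerset.mp hK)).trans hH
      rw [Complex.norm_real, norm_pow]
      simpa using pow_le_pow_right₀ (by norm_num : (1 : ℝ) ≤ 2) this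
    have hcard : (H.powerset.card : ℝ) ≤ 2 ^ k := by
      rw [Finset.card_powerset]
      exact_mod_cast Nat.pow_le_pow_right (by norm_num) hH
    have hin : ∀ K ∈ H.powerset, ‖(((-2 : ℝ) ^ K.card : ℝ) : ℂ) • ∑ K' ∈ H.powerset,
        (((-2 : ℝ) ^ K'.card : ℝ) : ℂ) • (Gt S W * (C * (Le (K'.biUnion id) 0 * X' *
          Le (K.biUnion id) 0) * Cᴴ) * Le S t)‖ ≤ 2 ^ k * (2 ^ k * (2 ^ k * (3 * (1 / 2) ^ l'))) := by
      intro K hK
      rw [norm_smul]
      refine mul_le_mul (hc K hK) ?_ (norm_nonneg _) (by positivity)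
      refine (norm_sum_le _ _).trans ?_
      refine (Finset.sum_le_card_nsmul _ _ (2 ^ k * (3 * (1 / 2) ^ l')) ?_).trans ?_
      · intro K' hK'
        rw [norm_smul]
        exact mul_le_mul (hc K' hK') (hterm _ _) (norm_nonneg _) (by positivity)
      · rw [nsmul_eq_mul]
        exact mul_le_mul_of_nonneg_right hcard (by positivity)
    refine (norm_sum_le _ _).trans ?_
    refine (Finset.sum_le_card_nsmul _ _ _ hin).trans ?_
    rw [nsmul_eq_mul]
    refine (mul_le_mul_of_nonneg_right hcard (by positivity)).trans ?_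
    rw [← two_pow_mul_half (4 * k + 2) l, ← hl']
    have : (2 : ℝ) ^ (4 * k + 2) = 2 ^ k * (2 ^ k * (2 ^ k * (2 ^ k * 4))) := by ring
    rw [this]
    have h3 : (0 : ℝ) ≤ 2 ^ k * (2 ^ k * (2 ^ k * (2 ^ k * (1 / 2) ^ l'))) := by positivity
    nlinarith

lemma exists_L {δ : ℝ} (hδ : 0 < δ) (N : ℕ) :
    ∃ L : ℕ, 1 ≤ L ∧ N + 1 ≤ 2 ^ L ∧ (L : ℝ) ≤ (2 / δ + 1) * ((N : ℝ) + 1) ^ δ := by
  refine ⟨Nat.log 2 (N + 1) + 1, by omega, (Nat.lt_pow_succ_log_self (by norm_num) _).le, ?_⟩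
  have hN : (1 : ℝ) ≤ (N : ℝ) + 1 := by linarith [(Nat.cast_nonneg N : (0 : ℝ) ≤ N)]
  have h1 : (2 : ℝ) ^ Nat.log 2 (N + 1) ≤ (N : ℝ) + 1 := by
    exact_mod_cast Nat.pow_log_le_self 2 (by omega : N + 1 ≠ 0)
  have h2 := Real.log_le_log (by positivity) h1
  rw [Real.log_pow] at h2
  have h3 := Real.log_le_rpow_div (by positivity : (0 : ℝ) ≤ (N : ℝ) + 1) hδ
  have h4 : 1 ≤ ((N : ℝ) + 1) ^ δ := Real.one_le_rpow hN hδ.le
  have h5 : (1 : ℝ) / 2 ≤ Real.log 2 := by linarith [Real.log_two_gt_d9]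
  have h6 : (0 : ℝ) ≤ (Nat.log 2 (N + 1) : ℝ) := Nat.cast_nonneg _
  have h7 : (2 / δ + 1) * ((N : ℝ) + 1) ^ δ = 2 * (((N : ℝ) + 1) ^ δ / δ) + ((N : ℝ) + 1) ^ δ := by
    ring
  push_cast
  nlinarith

lemma exists_s (I N : ℕ) :
    ∃ s : ℕ, 1 ≤ s ∧ N ≤ s ^ (I + 1) ∧ (s : ℝ) ≤ 2 * ((N : ℝ) + 1) ^ (1 / ((I : ℝ) + 1)) := by
  have hN : (1 : ℝ) ≤ (N : ℝ) + 1 := by linarith [(Nat.cast_nonneg N : (0 : ℝ) ≤ N)]
  set x := ((N : ℝ) + 1) ^ (1 / ((I : ℝ) + 1)) with hx
  have h1 : 1 ≤ x := Real.one_le_rpow hN (by positivity)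
  have h2 : x ≤ ⌈x⌉₊ := Nat.le_ceil x
  refine ⟨⌈x⌉₊, Nat.one_le_ceil_iff.mpr (by linarith), ?_, ?_⟩
  · have h3 : x ^ (I + 1) = (N : ℝ) + 1 := by
      rw [hx, ← Real.rpow_natCast, ← Real.rpow_mul (by positivity)]
      push_cast
      rw [one_div_mul_cancel (by positivity), Real.rpow_one]
    have h4 := pow_le_pow_left₀ (by positivity) h2 (I + 1)
    have : (N : ℝ) ≤ (⌈x⌉₊ : ℝ) ^ (I + 1) := by linarith
    exact_mod_cast this
  · linarith [Nat.ceil_lt_add_one (by positivity : 0 ≤ x)]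

theorem sb_all (d : ℕ) : ∀ δ : ℝ, 0 < δ → ∃ K : ℝ, 0 ≤ K ∧ ∀ N : ℕ, ∃ lam : ℕ, 1 ≤ lam ∧
    (lam : ℝ) ≤ K * ((N : ℝ) + 1) ^ δ ∧ SB (Fin N) d lam := by
  induction d with
  | zero =>
    intro δ hδ
    refine ⟨1, zero_le_one, fun N => ⟨1, le_rfl, ?_, sb_zero⟩⟩
    simpa using Real.one_le_rpow (by linarith [(Nat.cast_nonneg N : (0 : ℝ) ≤ N)]) hδ.le
  | succ d ih =>
    intro δ hδ
    obtain ⟨I, hI⟩ := exists_nat_one_div_lt (half_pos (half_pos hδ))
    set η := δ / 2 / (12 * I + 3) with hη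
    have hη0 : 0 < η := by positivity
    obtain ⟨K, hK, h⟩ := ih η hη0
    set K1 := 2 / η + 1
    refine ⟨13 * (2 * K1 * ((31 * K1 ^ 2 * K) ^ (2 * I) * 2)) ^ 2 * K, by positivity, fun N => ?_⟩
    obtain ⟨lam, h1, h2, h3⟩ := h N
    obtain ⟨L, hL1, hL2, hL3⟩ := exists_L hη0 N
    obtain ⟨s, hs1, hs2, hs3⟩ := exists_s I N
    have hb := bb_of_sb (I := I) hL1 hs1 h1 (by simpa using hL2) (by simpa using hs2) h3
    have hG : 1 ≤ 31 * L ^ 2 * lam := by
      have := Nat.mul_le_mul (Nat.one_le_pow 2 _ hL1) h1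
      nlinarith
    have hpos : 1 ≤ 2 * L * ((31 * L ^ 2 * lam) ^ (2 * I) * s) :=
      Nat.mul_pos (by omega) (Nat.mul_pos (Nat.pow_pos hG) hs1)
    refine ⟨_, Nat.mul_pos (Nat.mul_pos (by norm_num) (Nat.pow_pos hpos)) h1, ?_,
      sb_step hpos h1 h3 hb⟩
    have hN : (1 : ℝ) ≤ (N : ℝ) + 1 := by linarith [(Nat.cast_nonneg N : (0 : ℝ) ≤ N)]
    set x := ((N : ℝ) + 1) ^ η with hx
    set z := ((N : ℝ) + 1) ^ (1 / ((I : ℝ) + 1)) with hz
    have hxz : x ^ (12 * I + 3) * z ^ 2 ≤ ((N : ℝ) + 1) ^ δ := by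
      rw [hx, hz, ← Real.rpow_natCast, ← Real.rpow_natCast, ← Real.rpow_mul (by positivity),
        ← Real.rpow_mul (by positivity), ← Real.rpow_add (by positivity)]
      refine Real.rpow_le_rpow_of_exponent_le hN ?_
      push_cast
      rw [hη, div_mul_cancel₀ _ (by positivity)]
      linarith
    have hx0 : 0 ≤ x := by positivity
    have hz0 : 0 ≤ z := by positivity
    push_cast
    calc _ ≤ 13 * (2 * (K1 * x) * ((31 * (K1 * x) ^ 2 * (K * x)) ^ (2 * I) * (2 * z))) ^ 2 *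
          (K * x) := by gcongr
      _ = 13 * (2 * K1 * ((31 * K1 ^ 2 * K) ^ (2 * I) * 2)) ^ 2 * K *
          (x ^ (12 * I + 3) * z ^ 2) := by
          have : 31 * (K1 * x) ^ 2 * (K * x) = (31 * K1 ^ 2 * K) * x ^ 3 := by ring
          rw [this, mul_pow (31 * K1 ^ 2 * K), ← pow_mul x]
          generalize (31 * K1 ^ 2 * K) ^ (2 * I) = A
          ring
      _ ≤ _ := by gcongr

end Vale.Agent.P368
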